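import Mathlib

/-!
# P257 / H941 / Echelon : two lemmas on filtered complexes

Abstract linear algebra for the leading term method.  `F n` is the part of filtration level `< n`.
The functionals `Θ r` (`r` a monomial of level `lev r`) compute the first page.

* `echelon` : a vanishing criterion for cohomology when the list of monomials is not empty.
* `divide` : if every monomial of a bidegree is divisible by a central cocycle `b`, then every
  cocycle is divisible by `b` up to a coboundary.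
-/

namespace Vale.Agent.P257.H941

section Echelon

variable {K A B C : Type*} [Field K] [AddCommGroup A] [Module K A] [AddCommGroup B] [Module K B]
  [AddCommGroup C] [Module K C]

/-- The data of the leading term method in one degree. -/
structure Page (K : Type*) {A B C : Type*} [Field K] [AddCommGroup A] [Module K A]
    [AddCommGroup B] [Module K B] [AddCommGroup C] [Module K C]
    (d0 : A →ₗ[K] B) (d1 : B →ₗ[K] C) (A0 : Submodule K A) (B0 : Submodule K B)
    (F : ℕ → Submodule K B) (G : ℕ → Submodule K C)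
    {R : Type*} (lev : R → ℕ) (Θ : R → B →ₗ[K] K)
    {T : Type*} (lev' : T → ℕ) (Θ' : T → C →ₗ[K] K) : Prop where
  F_mono : Monotone F
  G_mono : Monotone G
  F_zero : F 0 = ⊥
  exhaust : ∀ w ∈ B0, ∃ n, w ∈ F n
  d0_mem : ∀ x ∈ A0, d0 x ∈ B0
  t0 : ∀ n, ∀ z ∈ G n, ∀ τ, n ≤ lev' τ → Θ' τ z = 0
  t1 : ∀ n, ∀ w ∈ F (n + 1), w ∈ B0 → ∀ τ, n ≤ lev' τ → Θ' τ (d1 w) = 0
  t2 : ∀ n, ∀ w ∈ F (n + 1), w ∈ B0 → d1 w ∈ G n → (∀ r, lev r = n → Θ r w = 0) →
    ∃ x ∈ A0, w - d0 x ∈ F n

variable {d0 : A →ₗ[K] B} {d1 : B →ₗ[K] C} {A0 : Submodule K A} {B0 : Submodule K B}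
  {F : ℕ → Submodule K B} {G : ℕ → Submodule K C}
  {R : Type*} {lev : R → ℕ} {Θ : R → B →ₗ[K] K}
  {T : Type*} {lev' : T → ℕ} {Θ' : T → C →ₗ[K] K}

/-- The main induction of the echelon lemma; only the levels in `[L0, m0)` matter. -/
theorem Page.step (P : Page K d0 d1 A0 B0 F G lev Θ lev' Θ')
    (hdd : ∀ x, d1 (d0 x) = 0)
    {ι : Type*} [Fintype ι] (U : ι → B) (u l : ι → ℕ)
    (hU0 : ∀ k, U k ∈ B0)
    (hU : ∀ k, U k ∈ F (u k + 1)) (hdU : ∀ k, d1 (U k) ∈ G (l k + 1))
    (hlu : ∀ k, l k < u k) (L0 m0 : ℕ)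
    (hspan : ∀ n, L0 ≤ n → n < m0 → ∀ w ∈ F (n + 1), w ∈ B0 → d1 w ∈ G n →
      ∃ c : ι → K, (∀ k, c k ≠ 0 → u k = n) ∧ ∃ x ∈ A0, d0 x ∈ F (n + 1) ∧
      ∀ r, lev r = n → Θ r w = ∑ k, c k * Θ r (U k) + Θ r (d0 x))
    (hinj : ∀ L, L0 ≤ L → L < m0 → ∀ c : ι → K, (∀ k, c k ≠ 0 → l k = L) →
      (∀ τ, lev' τ = L → ∑ k, c k * Θ' τ (d1 (U k)) = 0) → c = 0) :
    ∀ m, m ≤ m0 → ∀ L, L0 ≤ L → L ≤ m → ∀ w ∈ F m, w ∈ B0 → d1 w ∈ G L →
      ∃ c : ι → K, (∀ k, c k ≠ 0 → l k < L ∧ u k < m) ∧ ∃ x ∈ A0,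
        w - ∑ k, c k • U k - d0 x ∈ F L := by
  classical
  intro m
  induction m with
  | zero =>
    intro _ L _ hL w hw hwB hdw
    obtain rfl : L = 0 := by omega
    refine ⟨0, fun k hk => absurd rfl hk, 0, A0.zero_mem, ?_⟩
    simpa using hw
  | succ m ih =>
    intro hm0 L hL0 hL w hw hwB hdw
    rcases Nat.eq_or_lt_of_le hL with rfl | hL'
    · refine ⟨0, fun k hk => absurd rfl hk, 0, A0.zero_mem, ?_⟩
      simpa using hw
    · have hLm : L ≤ m := by omega
      obtain ⟨c, hc, x, hx, hdx, hΘ⟩ := hspan m (hL0.trans hLm) (by omega) w hw hwB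
        (P.G_mono hLm hdw)
      -- subtract the leading terms
      have hsumB : ∀ c : ι → K, ∑ k, c k • U k ∈ B0 := fun c =>
        Submodule.sum_mem _ fun k _ => Submodule.smul_mem _ _ (hU0 k)
      have hsumF : ∑ k, c k • U k ∈ F (m + 1) := by
        refine Submodule.sum_mem _ fun k _ => ?_
        by_cases hk : c k = 0
        · rw [hk, zero_smul]; exact Submodule.zero_mem _
        · rw [← hc k hk]; exact Submodule.smul_mem _ _ (hU k)
      set w1 := w - ∑ k, c k • U k - d0 x with hw1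
      have hw1F : w1 ∈ F (m + 1) := Submodule.sub_mem _ (Submodule.sub_mem _ hw hsumF) hdx
      have hw1B : w1 ∈ B0 :=
        Submodule.sub_mem _ (Submodule.sub_mem _ hwB (hsumB c)) (P.d0_mem x hx)
      have hdw1 : d1 w1 = d1 w - ∑ k, c k • d1 (U k) := by
        rw [hw1, map_sub, map_sub, hdd, sub_zero, map_sum]
        simp only [map_smul]
      have hsumG : ∀ (c : ι → K) (n : ℕ), (∀ k, c k ≠ 0 → l k < n) →
          ∑ k, c k • d1 (U k) ∈ G n := by
        intro c n h
        refine Submodule.sum_mem _ fun k _ => ?_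
        by_cases hk : c k = 0
        · rw [hk, zero_smul]; exact Submodule.zero_mem _
        · exact Submodule.smul_mem _ _ (P.G_mono (h k hk) (hdU k))
      have hdw1G : d1 w1 ∈ G m := by
        rw [hdw1]
        refine Submodule.sub_mem _ (P.G_mono hLm hdw) (hsumG c m fun k hk => ?_)
        have := hlu k
        rw [hc k hk] at this
        exact this
      have hΘ1 : ∀ r, lev r = m → Θ r w1 = 0 := by
        intro r hr
        rw [hw1, map_sub, map_sub, hΘ r hr, map_sum]
        simp only [map_smul, smul_eq_mul]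
        ring
      obtain ⟨x2, hx2, hw2⟩ := P.t2 m w1 hw1F hw1B hdw1G hΘ1
      set w2 := w1 - d0 x2 with hw2def
      have hw2B : w2 ∈ B0 := Submodule.sub_mem _ hw1B (P.d0_mem x2 hx2)
      have hdw2 : d1 w2 = d1 w - ∑ k, c k • d1 (U k) := by
        rw [hw2def, map_sub, hdd, sub_zero, hdw1]
      -- all coefficients with `L ≤ l k` vanish
      have key : ∀ k, c k ≠ 0 → l k < L := by
        by_contra hcon
        push Not at hcon
        obtain ⟨k0, hk0, hk0L⟩ := hcon
        -- the maximal level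
        let S : Finset ι := Finset.univ.filter fun k => c k ≠ 0
        have hS : S.Nonempty := ⟨k0, by simp [S, hk0]⟩
        obtain ⟨k1, hk1S, hk1⟩ := S.exists_max_image l hS
        have hk1c : c k1 ≠ 0 := by simpa [S] using hk1S
        have hmax : ∀ k, c k ≠ 0 → l k ≤ l k1 := fun k hk => hk1 k (by simp [S, hk])
        have hL1 : L ≤ l k1 := hk0L.trans (hmax k0 hk0)
        have hl1m : l k1 < m := by
          have := hlu k1
          rw [hc k1 hk1c] at this
          exact this
        have hdw2G : d1 w2 ∈ G (l k1 + 1) := by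
          rw [hdw2]
          exact Submodule.sub_mem _ (P.G_mono (by omega) hdw)
            (hsumG c _ fun k hk => Nat.lt_succ_of_le (hmax k hk))
        obtain ⟨c', hc', x3, hx3, hw3⟩ := ih (by omega) (l k1 + 1) (by omega)
          (by omega) w2 hw2 hw2B hdw2G
        set w3 := w2 - ∑ k, c' k • U k - d0 x3 with hw3def
        have hw3B : w3 ∈ B0 :=
          Submodule.sub_mem _ (Submodule.sub_mem _ hw2B (hsumB c')) (P.d0_mem x3 hx3)
        have hdw3 : d1 w3 = d1 w - ∑ k, (c k + c' k) • d1 (U k) := by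
          rw [hw3def, map_sub, map_sub, hdd, sub_zero, hdw2, map_sum]
          simp only [map_smul, add_smul, Finset.sum_add_distrib]
          abel
        -- the functionals of level `l k1`
        have hzero := hinj (l k1) (by omega) (by omega) (fun k => if l k = l k1 then c k + c' k else 0)
          (fun k hk => by
            by_contra h
            exact hk (by simp [h])) (fun τ hτ => by
            have h1 := P.t1 (l k1) w3 hw3 hw3B τ (by omega)
            rw [hdw3, map_sub, map_sum] at h1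
            have h2 : Θ' τ (d1 w) = 0 := P.t0 L _ hdw τ (by omega)
            rw [h2, zero_sub, neg_eq_zero] at h1
            refine Eq.trans (Finset.sum_congr rfl fun k _ => ?_) h1
            rw [map_smul, smul_eq_mul]
            by_cases hk : l k = l k1
            · simp only [hk, if_true]
            · rw [if_neg hk, zero_mul]
              by_cases hkc : c k + c' k = 0
              · rw [hkc, zero_mul]
              · have hlt : l k < l k1 := by
                  by_cases h : c k = 0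
                  · have h' : c' k ≠ 0 := by
                      intro h0; exact hkc (by rw [h, h0, add_zero])
                    have := (hc' k h').1
                    omega
                  · have := hmax k h
                    omega
                rw [P.t0 (l k + 1) _ (hdU k) τ (by omega), mul_zero])
        have hk1' := congrFun hzero k1
        simp only [if_true, Pi.zero_apply] at hk1'
        -- `c' k1 = 0` because `u k1 = m`
        have : c' k1 = 0 := by
          by_contra h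
          have := (hc' k1 h).2
          rw [hc k1 hk1c] at this
          omega
        rw [this, add_zero] at hk1'
        exact hk1c hk1'
      have hdw2G : d1 w2 ∈ G L := by
        rw [hdw2]
        exact Submodule.sub_mem _ hdw (hsumG c _ key)
      obtain ⟨c', hc', x3, hx3, hw3⟩ := ih (by omega) L hL0 hLm w2 hw2 hw2B hdw2G
      refine ⟨c + c', fun k hk => ?_, x + x2 + x3,
        A0.add_mem (A0.add_mem hx hx2) hx3, ?_⟩
      · by_cases h : c k = 0
        · have h' : c' k ≠ 0 := by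
            intro h0; exact hk (by simp [h, h0])
          have := hc' k h'
          exact ⟨this.1, by omega⟩
        · exact ⟨key k h, by rw [hc k h]; omega⟩
      · have : w - ∑ k, (c + c') k • U k - d0 (x + x2 + x3) =
            w2 - ∑ k, c' k • U k - d0 x3 := by
          rw [hw2def, hw1, map_add, map_add]
          simp only [Pi.add_apply, add_smul, Finset.sum_add_distrib]
          abel
        rw [this]
        exact hw3

/-- **Echelon lemma**. -/
theorem Page.echelon (P : Page K d0 d1 A0 B0 F G lev Θ lev' Θ')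
    (hdd : ∀ x, d1 (d0 x) = 0)
    {ι : Type*} [Fintype ι] (U : ι → B) (u l : ι → ℕ)
    (hU0 : ∀ k, U k ∈ B0)
    (hU : ∀ k, U k ∈ F (u k + 1)) (hdU : ∀ k, d1 (U k) ∈ G (l k + 1))
    (hlu : ∀ k, l k < u k)
    (hspan : ∀ n, ∀ w ∈ F (n + 1), w ∈ B0 → d1 w ∈ G n →
      ∃ c : ι → K, (∀ k, c k ≠ 0 → u k = n) ∧ ∃ x ∈ A0, d0 x ∈ F (n + 1) ∧
      ∀ r, lev r = n → Θ r w = ∑ k, c k * Θ r (U k) + Θ r (d0 x))
    (hinj : ∀ L, ∀ c : ι → K, (∀ k, c k ≠ 0 → l k = L) →
      (∀ τ, lev' τ = L → ∑ k, c k * Θ' τ (d1 (U k)) = 0) → c = 0) :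
    ∀ w ∈ B0, d1 w = 0 → ∃ x ∈ A0, w = d0 x := by
  intro w hwB hdw
  obtain ⟨n, hn⟩ := P.exhaust w hwB
  obtain ⟨c, hc, x, hx, h⟩ := P.step hdd U u l hU0 hU hdU hlu 0 n
    (fun k _ _ => hspan k) (fun L _ _ => hinj L) n le_rfl 0 le_rfl (Nat.zero_le n) w hn hwB (by rw [hdw]; exact Submodule.zero_mem _)
  refine ⟨x, hx, ?_⟩
  rw [P.F_zero, Submodule.mem_bot] at h
  have : ∑ k, c k • U k = 0 := Finset.sum_eq_zero fun k _ => by
    have : c k = 0 := by
      by_contra hk
      exact absurd (hc k hk).1 (Nat.not_lt_zero _)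
    rw [this, zero_smul]
  rw [this, sub_zero, sub_eq_zero] at h
  exact h

/-- No monomials: the cohomology vanishes. -/
theorem Page.vanish (P : Page K d0 d1 A0 B0 F G lev Θ lev' Θ')
    (hdd : ∀ x, d1 (d0 x) = 0) (hR : IsEmpty R) :
    ∀ w ∈ B0, d1 w = 0 → ∃ x ∈ A0, w = d0 x :=
  P.echelon hdd (ι := Empty) (fun k => k.elim) (fun k => k.elim) (fun k => k.elim)
    (fun k => k.elim) (fun k => k.elim) (fun k => k.elim) (fun k => k.elim)
    (fun n _ _ _ _ => ⟨0, fun k => k.elim, 0, A0.zero_mem, by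
      rw [map_zero]; exact Submodule.zero_mem _, fun r => (hR.false r).elim⟩)
    (fun _ c _ _ => funext fun k => k.elim)

/-- The span hypothesis follows from a dual basis of leading terms. -/
theorem Page.span_of_dual [Finite R] {ι : Type*} [Fintype ι] (U : ι → B) (u : ι → ℕ) (n : ℕ)
    (h : ∀ r, lev r = n → ∃ c : ι → K, (∀ k, c k ≠ 0 → u k = n) ∧ ∃ x ∈ A0, d0 x ∈ F (n + 1) ∧
      (∑ k, c k * Θ r (U k) + Θ r (d0 x) = 1) ∧
      ∀ r', lev r' = n → r' ≠ r → ∑ k, c k * Θ r' (U k) + Θ r' (d0 x) = 0) (w : B) :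
    ∃ c : ι → K, (∀ k, c k ≠ 0 → u k = n) ∧ ∃ x ∈ A0, d0 x ∈ F (n + 1) ∧
      ∀ r, lev r = n → Θ r w = ∑ k, c k * Θ r (U k) + Θ r (d0 x) := by
  classical
  have := Fintype.ofFinite R
  have h' : ∀ r, ∃ c : ι → K, (∀ k, c k ≠ 0 → u k = n) ∧ ∃ x ∈ A0, d0 x ∈ F (n + 1) ∧
      (lev r = n → (∑ k, c k * Θ r (U k) + Θ r (d0 x) = 1) ∧
      ∀ r', lev r' = n → r' ≠ r → ∑ k, c k * Θ r' (U k) + Θ r' (d0 x) = 0) := by
    intro r
    by_cases hr : lev r = n
    · obtain ⟨c, hc, x, hx, hxF, h1, h2⟩ := h r hr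
      exact ⟨c, hc, x, hx, hxF, fun _ => ⟨h1, h2⟩⟩
    · exact ⟨0, fun k hk => absurd rfl hk, 0, A0.zero_mem, by
        rw [map_zero]; exact Submodule.zero_mem _, fun h => absurd h hr⟩
  choose c hc x hx hxF hcx using h'
  set S : Finset R := Finset.univ.filter fun r => lev r = n with hS
  have hmem : ∀ r, r ∈ S ↔ lev r = n := fun r => by simp [hS]
  refine ⟨fun k => ∑ r ∈ S, Θ r w * c r k, fun k hk => ?_, ∑ r ∈ S, Θ r w • x r,
    Submodule.sum_mem _ fun r _ => Submodule.smul_mem _ _ (hx r), ?_, fun r hr => ?_⟩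
  · obtain ⟨r, _, hr⟩ := Finset.exists_ne_zero_of_sum_ne_zero hk
    exact hc r k (right_ne_zero_of_mul hr)
  · rw [map_sum]
    refine Submodule.sum_mem _ fun r _ => ?_
    rw [map_smul]
    exact Submodule.smul_mem _ _ (hxF r)
  · have h1 : ∑ k, (∑ r' ∈ S, Θ r' w * c r' k) * Θ r (U k) + Θ r (d0 (∑ r' ∈ S, Θ r' w • x r')) =
        ∑ r' ∈ S, Θ r' w * (∑ k, c r' k * Θ r (U k) + Θ r (d0 (x r'))) := by
      simp only [map_sum, map_smul, smul_eq_mul, mul_add, Finset.mul_sum, Finset.sum_mul,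
        Finset.sum_add_distrib]
      rw [Finset.sum_comm]
      congr 1
      refine Finset.sum_congr rfl fun k _ => Finset.sum_congr rfl fun r' _ => ?_
      ring
    rw [h1, Finset.sum_eq_single r]
    · rw [(hcx r hr).1, mul_one]
    · intro r' hr' hne
      rw [(hcx r' ((hmem r').1 hr')).2 r hr (Ne.symm hne), mul_zero]
    · intro h
      exact absurd ((hmem r).2 hr) h

/-- A convenient form of `hinj`: every `U k` has its own detecting monomial. -/
theorem inj_of_diag {ι : Type*} [Fintype ι] (e : ι → C) (l : ι → ℕ) (τ : ι → T)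
    (hτ : ∀ k, lev' (τ k) = l k) (h1 : ∀ k, Θ' (τ k) (e k) ≠ 0)
    (h2 : ∀ k k', k ≠ k' → l k = l k' → Θ' (τ k) (e k') = 0) (L : ℕ) (c : ι → K)
    (hc : ∀ k, c k ≠ 0 → l k = L)
    (h : ∀ t, lev' t = L → ∑ k, c k * Θ' t (e k) = 0) : c = 0 := by
  classical
  funext k
  by_contra hk
  have hk' : c k ≠ 0 := hk
  have h3 := h (τ k) (by rw [hτ, hc k hk'])
  rw [Finset.sum_eq_single k] at h3
  · exact mul_ne_zero hk' (h1 k) h3
  · intro k' _ hne
    by_cases h0 : c k' = 0
    · rw [h0, zero_mul]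
    · rw [h2 k k' (Ne.symm hne) (by rw [hc k hk', hc k' h0]), mul_zero]
  · intro h; exact absurd (Finset.mem_univ k) h

end Echelon

end Vale.Agent.P257.H941
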