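import Mathlib

/-!
# P257 / H941 / Digit : base `p` digits of exponents, levels and carries

`K` is a set of slots.  Exponents `b : K × (ℕ × ℕ) →₀ ℕ` of the free digit variables
`(k, (i, l))` are mapped to exponents `ex p b : K × ℕ →₀ ℕ` of the variables `(k, i)` by
`(k, (i, l)) ↦ p ^ l` units of `(k, i)`.
-/

noncomputable section

namespace Vale.Agent.P257.H941

open Finsupp

variable {K : Type*} (p : ℕ)

/-- exponents of digit variables to exponents -/
def ex : (K × (ℕ × ℕ) →₀ ℕ) →+ (K × ℕ →₀ ℕ) :=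
  Finsupp.liftAddHom fun s => (Finsupp.singleAddHom (s.1, s.2.1)).comp
    (AddMonoidHom.mulRight (p ^ s.2.2))

@[simp] theorem ex_single (s : K × (ℕ × ℕ)) (c : ℕ) :
    ex p (single s c) = single (s.1, s.2.1) (c * p ^ s.2.2) := by
  simp [ex]

theorem ex_eq_sum (b : K × (ℕ × ℕ) →₀ ℕ) :
    ex p b = b.sum fun s c => single (s.1, s.2.1) (c * p ^ s.2.2) := rfl

/-- all digits are smaller than `p` -/
def RedE (b : K × (ℕ × ℕ) →₀ ℕ) : Prop := ∀ s, b s < p

/-- digits of a sum of digits -/
theorem sum_digit {p : ℕ} (hp : 1 < p) : ∀ (m N : ℕ) (f : ℕ → ℕ), (∀ l, f l < p) → m < N →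
    (∑ l ∈ Finset.range N, f l * p ^ l) / p ^ m % p = f m := by
  intro m
  induction m with
  | zero =>
    intro N f hf hN
    obtain ⟨N, rfl⟩ : ∃ N', N = N' + 1 := ⟨N - 1, by omega⟩
    rw [Finset.sum_range_succ', pow_zero, Nat.div_one, mul_one]
    have : ∑ l ∈ Finset.range N, f (l + 1) * p ^ (l + 1) =
        p * ∑ l ∈ Finset.range N, f (l + 1) * p ^ l := by
      rw [Finset.mul_sum]
      exact Finset.sum_congr rfl fun l _ => by ring
    rw [this, Nat.mul_add_mod, Nat.mod_eq_of_lt (hf 0)]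
  | succ m ih =>
    intro N f hf hN
    obtain ⟨N, rfl⟩ : ∃ N', N = N' + 1 := ⟨N - 1, by omega⟩
    rw [Finset.sum_range_succ', pow_zero, mul_one]
    have : ∑ l ∈ Finset.range N, f (l + 1) * p ^ (l + 1) =
        p * ∑ l ∈ Finset.range N, f (l + 1) * p ^ l := by
      rw [Finset.mul_sum]
      exact Finset.sum_congr rfl fun l _ => by ring
    rw [this, pow_succ', ← Nat.div_div_eq_div_mul, Nat.mul_add_div (by omega),
      Nat.div_eq_of_lt (hf 0), add_zero]
    exact ih N (fun l => f (l + 1)) (fun l => hf _) (by omega)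

theorem ex_apply (b : K × (ℕ × ℕ) →₀ ℕ) (k : K) (i N : ℕ)
    (hN : ∀ s ∈ b.support, s.2.2 < N) :
    ex p b (k, i) = ∑ l ∈ Finset.range N, b (k, (i, l)) * p ^ l := by
  classical
  induction b using Finsupp.induction with
  | zero => simp
  | single_add s c b hs hc ih =>
    have hsup : (single s c + b).support = insert s b.support := by
      rw [Finsupp.support_add_eq, Finsupp.support_single _ hc]
      · rfl
      · rw [Finsupp.support_single _ hc]
        simpa using hs
    rw [map_add, Finsupp.add_apply, ih fun t ht => hN t (by rw [hsup]; exact Finset.mem_insert_of_mem ht)]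
    have h1 : ex p (single s c) (k, i) = ∑ l ∈ Finset.range N, single s c (k, (i, l)) * p ^ l := by
      rw [ex_single]
      by_cases h : (s.1, s.2.1) = (k, i)
      · have hs2 : s = (k, (i, s.2.2)) := by
          rw [Prod.mk.injEq] at h
          ext
          · exact h.1
          · exact h.2
          · rfl
        rw [h, Finsupp.single_eq_same, Finset.sum_eq_single s.2.2]
        · rw [← hs2, Finsupp.single_eq_same]
        · intro l _ hl
          rw [Finsupp.single_eq_of_ne, zero_mul]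
          intro h'
          rw [← h'] at hl
          exact hl rfl
        · intro h'
          exact absurd (Finset.mem_range.2 (hN s (by rw [hsup]; exact Finset.mem_insert_self _ _))) h'
      · rw [Finsupp.single_eq_of_ne' h, Finset.sum_eq_zero]
        intro l _
        rw [Finsupp.single_eq_of_ne, zero_mul]
        intro h'
        exact h (by rw [← h'])
    rw [h1, ← Finset.sum_add_distrib]
    exact Finset.sum_congr rfl fun l _ => by rw [Finsupp.add_apply, add_mul]

variable {p}

theorem RedE.ext (hp : 1 < p) {a b : K × (ℕ × ℕ) →₀ ℕ} (ha : RedE p a) (hb : RedE p b)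
    (h : ex p a = ex p b) : a = b := by
  classical
  ext ⟨k, i, l⟩
  obtain ⟨N, hN⟩ : ∃ N, (∀ s ∈ a.support, s.2.2 < N) ∧ (∀ s ∈ b.support, s.2.2 < N) ∧ l < N := by
    refine ⟨(a.support ∪ b.support).sup (fun s => s.2.2) + l + 1, fun s hs => ?_, fun s hs => ?_,
      by omega⟩
    · have := Finset.le_sup (f := fun s : K × (ℕ × ℕ) => s.2.2)
        (Finset.mem_union_left b.support hs)
      omega
    · have := Finset.le_sup (f := fun s : K × (ℕ × ℕ) => s.2.2)
        (Finset.mem_union_right a.support hs)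
      omega
  have h1 := ex_apply p a k i N hN.1
  have h2 := ex_apply p b k i N hN.2.1
  rw [← sum_digit hp l N (fun l => a (k, (i, l))) (fun _ => ha _) hN.2.2, ← h1, h, h2,
    sum_digit hp l N (fun l => b (k, (i, l))) (fun _ => hb _) hN.2.2]

/-- the level of an exponent -/
def lvE (μ : ℕ × ℕ → ℕ) : (K × (ℕ × ℕ) →₀ ℕ) →+ ℕ :=
  Finsupp.liftAddHom fun s => AddMonoidHom.mulRight (μ s.2)

@[simp] theorem lvE_single (μ : ℕ × ℕ → ℕ) (s : K × (ℕ × ℕ)) (c : ℕ) :
    lvE μ (single s c) = c * μ s.2 := by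
  simp [lvE]

theorem lvE_eq_sum (μ : ℕ × ℕ → ℕ) (b : K × (ℕ × ℕ) →₀ ℕ) :
    lvE μ b = b.sum fun s c => c * μ s.2 := by
  simp [lvE, Finsupp.liftAddHom_apply]

/-- Every exponent can be reduced, and this lowers the level. -/
theorem exists_red (hp : 1 < p) {μ : ℕ × ℕ → ℕ} (hμ : ∀ i j, μ (i, j + 1) < p * μ (i, j)) :
    ∀ b : K × (ℕ × ℕ) →₀ ℕ, ∃ a, RedE p a ∧ ex p a = ex p b ∧ (a = b ∨ lvE μ a < lvE μ b) := by
  intro b
  induction h : Finsupp.degree b using Nat.strong_induction_on generalizing b with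
  | _ N ih =>
    by_cases hb : RedE p b
    · exact ⟨b, hb, rfl, Or.inl rfl⟩
    · rw [RedE, not_forall] at hb
      obtain ⟨⟨k, i, l⟩, hs⟩ := hb
      rw [not_lt] at hs
      obtain ⟨c, hc⟩ : ∃ c, b = c + single (k, (i, l)) p :=
        ⟨b - single (k, (i, l)) p, (tsub_add_cancel_of_le (Finsupp.single_le_iff.2 hs)).symm⟩
      obtain ⟨a, ha, hab, hlt⟩ := ih _ (by
        rw [← h, hc, map_add, map_add, Finsupp.degree_single, Finsupp.degree_single]
        omega) (c + single (k, (i, l + 1)) 1) rfl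
      refine ⟨a, ha, ?_, Or.inr ?_⟩
      · rw [hab, hc, map_add, map_add, ex_single, ex_single]
        congr 2
        ring
      · have h1 : lvE μ (c + single (k, (i, l + 1)) 1) < lvE μ b := by
          rw [hc, map_add, map_add, lvE_single, lvE_single]
          have := hμ i l
          simp only
          omega
        rcases hlt with h2 | h2
        · rw [h2]; exact h1
        · exact h2.trans h1

/-- Key lemma: a reduced exponent has the smallest level among all with the same value. -/
theorem red_min (hp : 1 < p) {μ : ℕ × ℕ → ℕ} (hμ : ∀ i j, μ (i, j + 1) < p * μ (i, j))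
    {a b : K × (ℕ × ℕ) →₀ ℕ} (ha : RedE p a) (h : ex p a = ex p b) :
    a = b ∨ lvE μ a < lvE μ b := by
  obtain ⟨a', ha', h1, h2⟩ := exists_red hp hμ b
  rwa [ha.ext hp ha' (h.trans h1.symm)]

theorem exists_redE (hp : 1 < p) (e : K × ℕ →₀ ℕ) :
    ∃ a : K × (ℕ × ℕ) →₀ ℕ, RedE p a ∧ ex p a = e := by
  obtain ⟨a, ha, h1, -⟩ := exists_red (μ := fun _ => 1) hp
    (fun i j => by simpa using hp) (e.mapDomain fun s => (s.1, (s.2, 0)) : K × (ℕ × ℕ) →₀ ℕ)
  refine ⟨a, ha, h1.trans ?_⟩
  rw [ex_eq_sum, Finsupp.sum_mapDomain_index]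
  · simp
  · simp
  · intro s m n
    rw [← Finsupp.single_add, add_mul]

end Vale.Agent.P257.H941

end
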