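import Vale.Agent.P257.H632.Defs
import Vale.Agent.P257.H93.Cup
import Vale.Agent.P257.H941.Digit

/-!
# P257 / H941 / FilMul : the level filtration of `CobP p n` is multiplicative
-/

noncomputable section

namespace Vale.Agent.P257.H941

open Vale.Agent.P257.H93 Vale.Agent.P257.H632 MvPolynomial

variable {p : ℕ} {n m : ℕ} {μ : ℕ × ℕ → ℕ}

/-! ### words and exponents of digit variables -/

theorem sum_getD {M N : Type*} [Zero M] [AddCommMonoid N] (f : M → N) :
    ∀ {n : ℕ} (l : List M), l.length = n → ∑ k : Fin n, f (l.getD k 0) = (l.map f).sum := by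
  intro n l
  induction l generalizing n with
  | nil => rintro rfl; simp
  | cons a l ih =>
    rintro rfl
    rw [List.length_cons, Fin.sum_univ_succ, List.map_cons, List.sum_cons, ← ih rfl]
    rfl

theorem prod_getD {M N : Type*} [Zero M] [CommMonoid N] (f : M → N) :
    ∀ {n : ℕ} (l : List M), l.length = n → ∏ k : Fin n, f (l.getD k 0) = (l.map f).prod := by
  intro n l
  induction l generalizing n with
  | nil => rintro rfl; simp
  | cons a l ih =>
    rintro rfl
    rw [List.length_cons, Fin.prod_univ_succ, List.map_cons, List.prod_cons, ← ih rfl]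
    rfl

/-- the exponent of digit variables of a word -/
def flat (n : ℕ) (l : List Ex) : Fin n × (ℕ × ℕ) →₀ ℕ :=
  ∑ k : Fin n, (l.getD k 0).mapDomain (Prod.mk k)

@[simp] theorem flat_apply (n : ℕ) (l : List Ex) (k : Fin n) (v : ℕ × ℕ) :
    flat n l (k, v) = (l.getD k 0) v := by
  rw [flat, Finsupp.finsetSum_apply, Finset.sum_eq_single k]
  · exact Finsupp.mapDomain_apply (Prod.mk_right_injective k) _ _
  · intro k' _ hk'
    rw [Finsupp.mapDomain_of_notMem_range]
    rintro ⟨v', h⟩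
    exact hk' (congrArg Prod.fst h)
  · simp

theorem toE_eq (n : ℕ) (l : List Ex) : toE p n l = ex p (flat n l) := by
  rw [flat, map_sum, toE]
  refine Finset.sum_congr rfl fun k _ => ?_
  rw [ex_eq_sum, Finsupp.sum_mapDomain_index]
  · simp
  · intro s m n
    rw [← Finsupp.single_add, add_mul]

theorem lvE_flat {l : List Ex} (hl : l.length = n) : lvE μ (flat n l) = lev μ l := by
  rw [flat, map_sum, lev, ← sum_getD _ l hl]
  refine Finset.sum_congr rfl fun k _ => ?_
  rw [lvE_eq_sum, Finsupp.sum_mapDomain_index]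
  · simp
  · intro s m n
    rw [add_mul]

theorem redE_flat {l : List Ex} (hl : l.length = n) : RedE p (flat n l) ↔ Red p l := by
  constructor
  · intro h m hm v
    obtain ⟨k, hk, rfl⟩ := List.getElem_of_mem hm
    have := h (⟨k, by omega⟩, v)
    rwa [flat_apply, List.getD_eq_getElem _ _ hk] at this
  · rintro h ⟨k, v⟩
    rw [flat_apply, List.getD_eq_getElem _ _ (by rw [hl]; exact k.2)]
    exact h _ (List.getElem_mem _) v

theorem exists_flat (b : Fin n × (ℕ × ℕ) →₀ ℕ) : ∃ l : List Ex, l.length = n ∧ flat n l = b := by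
  refine ⟨List.ofFn fun k => b.comapDomain (Prod.mk k) (Prod.mk_right_injective k).injOn,
    List.length_ofFn, ?_⟩
  ext ⟨k, v⟩
  rw [flat_apply, List.getD_eq_getElem _ _ (by rw [List.length_ofFn]; exact k.2),
    List.getElem_ofFn]
  rfl

theorem fac_flat {l : List Ex} (hl : l.length = n) :
    fac l = (flat n l).prod fun _ c => c.factorial := by
  classical
  have h0 : ∀ s ∈ (Finset.univ : Finset (Fin n)) ×ˢ
      (Finset.univ.biUnion fun k : Fin n => (l.getD k 0).support), Nat.factorial 0 = 1 := by simp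
  rw [Finsupp.prod_of_support_subset (s := (Finset.univ : Finset (Fin n)) ×ˢ
      (Finset.univ.biUnion fun k : Fin n => (l.getD k 0).support)) (flat n l) ?_
      (fun _ c => c.factorial) (by simp), Finset.prod_product]
  · rw [fac, ← prod_getD _ l hl]
    refine Finset.prod_congr rfl fun k _ => ?_
    rw [Finsupp.prod_of_support_subset
      (s := Finset.univ.biUnion fun k : Fin n => (l.getD k 0).support) _
      (Finset.subset_biUnion_of_mem (fun k : Fin n => (l.getD k 0).support) (Finset.mem_univ k))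
      _ (by simp)]
    refine Finset.prod_congr rfl fun v _ => ?_
    rw [flat_apply]
  · rintro ⟨k, v⟩ hs
    rw [Finsupp.mem_support_iff, flat_apply] at hs
    rw [Finset.mem_product, Finset.mem_biUnion]
    exact ⟨Finset.mem_univ _, k, Finset.mem_univ _, Finsupp.mem_support_iff.2 hs⟩

theorem fac_ne_zero [hp : Fact p.Prime] {l : List Ex} (hl : Red p l) : (fac l : ZMod p) ≠ 0 := by
  rw [fac_flat (n := l.length) rfl, Finsupp.prod, Nat.cast_prod, Finset.prod_ne_zero_iff]
  intro s _ h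
  rw [ZMod.natCast_eq_zero_iff, hp.out.dvd_factorial] at h
  exact absurd ((redE_flat (n := l.length) rfl).2 hl s) (not_lt.2 h)

theorem symb_eq {z : CobP p n} {l : List Ex} (hl : l.length = n) (hr : Red p l) :
    symb n z l = (fac l : ZMod p) * coeff (ex p (flat n l)) z := by
  rw [symb, if_pos ⟨hl, hr⟩, toE_eq]

theorem mem_Fil_iff [hp : Fact p.Prime] {z : CobP p n} : z ∈ Fil μ n m ↔
    ∀ a : Fin n × (ℕ × ℕ) →₀ ℕ, RedE p a → m ≤ lvE μ a → coeff (ex p a) z = 0 := by
  constructor
  · intro h a ha hm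
    obtain ⟨l, hl, rfl⟩ := exists_flat a
    have hr := (redE_flat hl).1 ha
    have h1 := h l (by rwa [← lvE_flat hl])
    rw [symb_eq hl hr] at h1
    exact (mul_eq_zero.1 h1).resolve_left (fac_ne_zero hr)
  · intro h l hm
    by_cases hc : l.length = n ∧ Red p l
    · rw [symb_eq hc.1 hc.2, h _ ((redE_flat hc.1).2 hc.2) (by rwa [lvE_flat hc.1]), mul_zero]
    · rw [symb, if_neg hc]

/-! ### the free ring on the digit variables -/

section free

variable (p)

/-- evaluation of the free digit variables -/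
def ev (n : ℕ) : MvPolynomial (Fin n × (ℕ × ℕ)) (ZMod p) →ₐ[ZMod p] CobP p n :=
  aeval fun s => X (s.1, s.2.1) ^ (p ^ s.2.2)

@[simp] theorem ev_X (s : Fin n × (ℕ × ℕ)) : ev p n (X s) = X (s.1, s.2.1) ^ (p ^ s.2.2) := by
  simp [ev]

theorem ev_monomial (b : Fin n × (ℕ × ℕ) →₀ ℕ) (r : ZMod p) :
    ev p n (monomial b r) = monomial (ex p b) r := by
  have h1 : ∀ b : Fin n × (ℕ × ℕ) →₀ ℕ, ev p n (monomial b 1) = monomial (ex p b) 1 := by
    intro b
    induction b using Finsupp.induction_linear with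
    | zero => simp
    | add a b ha hb =>
      rw [← mul_one (1 : ZMod p), ← monomial_mul, map_mul, ha, hb, monomial_mul, map_add]
    | single s c =>
      rw [← X_pow_eq_monomial, map_pow, ev_X, ex_single, ← pow_mul, X_pow_eq_monomial, mul_comm]
  rw [← mul_one r, ← C_mul_monomial, map_mul, h1, ← C_mul_monomial]
  congr 1
  exact (ev p n).commutes r

/-- polynomials in the digit variables of level `< m` -/
def Lv (μ : ℕ × ℕ → ℕ) (n m : ℕ) : Submodule (ZMod p) (MvPolynomial (Fin n × (ℕ × ℕ)) (ZMod p)) where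
  carrier := {P | ∀ b, m ≤ lvE μ b → coeff b P = 0}
  add_mem' h1 h2 b hb := by rw [coeff_add, h1 b hb, h2 b hb, add_zero]
  zero_mem' b _ := coeff_zero b
  smul_mem' c P h b hb := by rw [coeff_smul, h b hb, smul_zero]

variable {p}

theorem mem_Lv {P : MvPolynomial (Fin n × (ℕ × ℕ)) (ZMod p)} :
    P ∈ Lv p μ n m ↔ ∀ b, m ≤ lvE μ b → coeff b P = 0 := Iff.rfl

theorem Lv_mono {m' : ℕ} (h : m ≤ m') : Lv p μ n m ≤ Lv p μ n m' :=
  fun _ hP b hb => hP b (h.trans hb)

theorem Lv_mul {P Q : MvPolynomial (Fin n × (ℕ × ℕ)) (ZMod p)} {a b : ℕ} (hP : P ∈ Lv p μ n a)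
    (hQ : Q ∈ Lv p μ n (b + 1)) : P * Q ∈ Lv p μ n (a + b) := by
  classical
  intro c hc
  rw [coeff_mul]
  refine Finset.sum_eq_zero fun x hx => ?_
  rw [Finset.HasAntidiagonal.mem_antidiagonal] at hx
  rw [← hx, map_add] at hc
  by_cases h : a ≤ lvE μ x.1
  · rw [hP _ h, zero_mul]
  · rw [hQ _ (by omega), mul_zero]

theorem monomial_mem_Lv {b : Fin n × (ℕ × ℕ) →₀ ℕ} (h : lvE μ b < m) (r : ZMod p) :
    monomial b r ∈ Lv p μ n m := by
  classical
  intro c hc
  rw [coeff_monomial, if_neg]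
  rintro rfl
  omega

variable [hp : Fact p.Prime]

/-- leading coefficients are not changed by `ev` -/
theorem coeff_ev (hμ : ∀ i j, μ (i, j + 1) < p * μ (i, j))
    {P : MvPolynomial (Fin n × (ℕ × ℕ)) (ZMod p)} (hP : P ∈ Lv p μ n (m + 1))
    {a : Fin n × (ℕ × ℕ) →₀ ℕ} (ha : RedE p a) (hm : m ≤ lvE μ a) :
    coeff (ex p a) (ev p n P) = coeff a P := by
  classical
  conv_lhs => rw [← P.support_sum_monomial_coeff]
  rw [map_sum, coeff_sum]
  rw [Finset.sum_eq_single a]
  · rw [ev_monomial, coeff_monomial, if_pos rfl]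
  · intro b hb hba
    rw [ev_monomial, coeff_monomial]
    by_cases h : ex p b = ex p a
    · rw [if_pos h]
      rcases red_min hp.out.one_lt hμ ha h.symm with h1 | h1
      · exact absurd h1.symm hba
      · exact hP b (by omega)
    · rw [if_neg h]
  · intro h
    rw [ev_monomial, coeff_monomial, if_pos rfl, notMem_support_iff.1 h]

theorem ev_mem (hμ : ∀ i j, μ (i, j + 1) < p * μ (i, j))
    {P : MvPolynomial (Fin n × (ℕ × ℕ)) (ZMod p)} (hP : P ∈ Lv p μ n m) :
    ev p n P ∈ Fil μ n m := by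
  rcases m with _ | m
  · have : P = 0 := by
      ext b
      rw [hP b (Nat.zero_le _), coeff_zero]
    rw [this, map_zero]
    exact zero_mem _
  · rw [mem_Fil_iff]
    intro a ha hm
    rw [coeff_ev hμ hP ha (by omega)]
    exact hP a hm

theorem exists_ev {z : CobP p n} (hz : z ∈ Fil μ n m) :
    ∃ P ∈ Lv p μ n m, ev p n P = z ∧ ∀ b ∈ P.support, RedE p b := by
  classical
  choose dg hdg using fun e : Fin n × ℕ →₀ ℕ => exists_redE (p := p) hp.out.one_lt e
  have hc : ∀ b, coeff b (∑ e ∈ z.support, monomial (dg e) (coeff e z)) ≠ 0 →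
      RedE p b ∧ coeff (ex p b) z ≠ 0 := by
    intro b hb
    rw [coeff_sum] at hb
    obtain ⟨e, he, h⟩ := Finset.exists_ne_zero_of_sum_ne_zero hb
    rw [coeff_monomial] at h
    split_ifs at h with h1
    · rw [← h1, (hdg e).2]
      exact ⟨(hdg e).1, h⟩
    · exact absurd rfl h
  refine ⟨∑ e ∈ z.support, monomial (dg e) (coeff e z), fun b hb => ?_, ?_, fun b hb => ?_⟩
  · by_contra h
    obtain ⟨h1, h2⟩ := hc b h
    exact h2 (mem_Fil_iff.1 hz b h1 hb)
  · rw [map_sum]
    conv_rhs => rw [← z.support_sum_monomial_coeff]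
    refine Finset.sum_congr rfl fun e _ => ?_
    rw [ev_monomial, (hdg e).2]
  · exact (hc b (mem_support_iff.1 hb)).1

end free

/-! ### the filtration -/

theorem Fil_mono {m' : ℕ} (h : m ≤ m') : (Fil μ n m : Submodule _ (CobP p n)) ≤ Fil μ n m' :=
  fun _ hz l hl => hz l (h.trans hl)

variable [hp : Fact p.Prime]

theorem Fil_zero : (Fil μ n 0 : Submodule _ (CobP p n)) = ⊥ := by
  rw [eq_bot_iff]
  intro z hz
  rw [Submodule.mem_bot]
  ext e
  obtain ⟨a, ha, rfl⟩ := exists_redE (p := p) hp.out.one_lt e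
  rw [mem_Fil_iff.1 hz a ha (Nat.zero_le _), coeff_zero]

theorem exists_mem_Fil (μ : ℕ × ℕ → ℕ) (z : CobP p n) : ∃ m, z ∈ Fil μ n m := by
  classical
  choose dg hdg using fun e : Fin n × ℕ →₀ ℕ => exists_redE (p := p) hp.out.one_lt e
  refine ⟨z.support.sup (fun e => lvE μ (dg e)) + 1, ?_⟩
  rw [mem_Fil_iff]
  intro a ha hm
  by_contra h
  have h1 := Finset.le_sup (f := fun e => lvE μ (dg e)) (mem_support_iff.2 h)
  have h2 : dg (ex p a) = a := (hdg _).1.ext hp.out.one_lt ha (hdg _).2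
  simp only [h2] at h1
  omega

theorem Fil_mul (hμ : ∀ i j, μ (i, j + 1) < p * μ (i, j)) {x y : CobP p n} {a b : ℕ}
    (hx : x ∈ Fil μ n a) (hy : y ∈ Fil μ n (b + 1)) : x * y ∈ Fil μ n (a + b) := by
  obtain ⟨P, hP, rfl, -⟩ := exists_ev hx
  obtain ⟨Q, hQ, rfl, -⟩ := exists_ev hy
  rw [← map_mul]
  exact ev_mem hμ (Lv_mul hP hQ)

theorem X_pow_mem_Fil (hμ : ∀ i j, μ (i, j + 1) < p * μ (i, j)) (k : Fin n) (i j : ℕ) :
    (X (k, i) ^ p ^ j : CobP p n) ∈ Fil μ n (μ (i, j) + 1) := by
  have h : (X (k, i) ^ p ^ j : CobP p n) = ev p n (X (k, (i, j))) := by rw [ev_X]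
  rw [h]
  apply ev_mem hμ
  rw [show (X (k, (i, j)) : MvPolynomial (Fin n × (ℕ × ℕ)) (ZMod p)) =
    monomial (Finsupp.single (k, (i, j)) 1) 1 from rfl]
  apply monomial_mem_Lv
  rw [lvE_single]
  simp

theorem one_mem_Fil (μ : ℕ × ℕ → ℕ) : (1 : CobP p n) ∈ Fil μ n 1 := by
  classical
  rw [mem_Fil_iff]
  intro a ha hm
  rw [coeff_one, if_neg]
  intro h
  have h0 : (0 : Fin n × (ℕ × ℕ) →₀ ℕ) = a := by
    refine RedE.ext hp.out.one_lt (fun s => ?_) ha (by rw [map_zero, h])
    exact hp.out.pos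
  rw [← h0, map_zero] at hm
  omega

/-! ### cup products -/

omit hp in
theorem coeff_rename_mul_rename {σ₁ σ₂ τ R : Type*} [CommSemiring R] (f : σ₁ → τ) (g : σ₂ → τ)
    (hf : Function.Injective f) (hg : Function.Injective g) (hfg : ∀ i j, f i ≠ g j)
    (x : MvPolynomial σ₁ R) (y : MvPolynomial σ₂ R) (e₁ : σ₁ →₀ ℕ) (e₂ : σ₂ →₀ ℕ) :
    coeff (e₁.mapDomain f + e₂.mapDomain g) (rename f x * rename g y) =
      coeff e₁ x * coeff e₂ y := by
  classical
  have hd1 : ∀ (e : σ₂ →₀ ℕ) (i : σ₁), e.mapDomain g (f i) = 0 := by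
    intro e i
    rw [Finsupp.mapDomain_of_notMem_range]
    rintro ⟨j, hj⟩
    exact hfg i j hj.symm
  have hd2 : ∀ (e : σ₁ →₀ ℕ) (j : σ₂), e.mapDomain f (g j) = 0 := by
    intro e j
    rw [Finsupp.mapDomain_of_notMem_range]
    rintro ⟨i, hi⟩
    exact hfg i j hi
  have hinj : ∀ (a₁ : σ₁ →₀ ℕ) (a₂ : σ₂ →₀ ℕ),
      a₁.mapDomain f + a₂.mapDomain g = e₁.mapDomain f + e₂.mapDomain g ↔ a₁ = e₁ ∧ a₂ = e₂ := by
    intro a₁ a₂
    constructor
    · intro h
      constructor
      · ext i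
        have := DFunLike.congr_fun h (f i)
        rwa [Finsupp.add_apply, Finsupp.add_apply, hd1, hd1, Finsupp.mapDomain_apply hf,
          Finsupp.mapDomain_apply hf, add_zero, add_zero] at this
      · ext j
        have := DFunLike.congr_fun h (g j)
        rwa [Finsupp.add_apply, Finsupp.add_apply, hd2, hd2, Finsupp.mapDomain_apply hg,
          Finsupp.mapDomain_apply hg, zero_add, zero_add] at this
    · rintro ⟨rfl, rfl⟩
      rfl
  induction x using MvPolynomial.induction_on' with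
  | add x x' hx hx' => rw [map_add, add_mul, coeff_add, hx, hx', coeff_add, add_mul]
  | monomial a₁ r₁ =>
    induction y using MvPolynomial.induction_on' with
    | add y y' hy hy' => rw [map_add, mul_add, coeff_add, hy, hy', coeff_add, mul_add]
    | monomial a₂ r₂ =>
      rw [rename_monomial, rename_monomial, monomial_mul, coeff_monomial, coeff_monomial,
        coeff_monomial]
      by_cases h1 : a₁ = e₁
      · by_cases h2 : a₂ = e₂
        · rw [if_pos ((hinj _ _).2 ⟨h1, h2⟩), if_pos h1, if_pos h2]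
        · rw [if_neg (fun h => h2 ((hinj _ _).1 h).2), if_neg h2, mul_zero]
      · rw [if_neg (fun h => h1 ((hinj _ _).1 h).1), if_neg h1, zero_mul]

omit hp in
theorem toE_append {a b : ℕ} {l₁ l₂ : List Ex} (h₁ : l₁.length = a) :
    toE p (a + b) (l₁ ++ l₂) =
      (toE p a l₁).mapDomain (fun ki : Fin a × ℕ => (Fin.castAdd b ki.1, ki.2)) +
      (toE p b l₂).mapDomain (fun ki : Fin b × ℕ => (Fin.natAdd a ki.1, ki.2)) := by
  rw [toE, Fin.sum_univ_add, toE, toE, Finsupp.mapDomain_finsetSum,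
    Finsupp.mapDomain_finsetSum]
  congr 1
  · refine Finset.sum_congr rfl fun k _ => ?_
    have : (l₁ ++ l₂).getD (Fin.castAdd b k : Fin (a + b)) 0 = l₁.getD k 0 := by
      rw [Fin.val_castAdd, List.getD_append _ _ _ _ (by rw [h₁]; exact k.2)]
    rw [this, Finsupp.sum, Finsupp.sum, Finsupp.mapDomain_finsetSum]
    refine Finset.sum_congr rfl fun v _ => ?_
    rw [Finsupp.mapDomain_single]
  · refine Finset.sum_congr rfl fun k _ => ?_
    have : (l₁ ++ l₂).getD (Fin.natAdd a k : Fin (a + b)) 0 = l₂.getD k 0 := by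
      rw [Fin.val_natAdd, List.getD_append_right _ _ _ _ (by omega)]
      congr 1
      omega
    rw [this, Finsupp.sum, Finsupp.sum, Finsupp.mapDomain_finsetSum]
    refine Finset.sum_congr rfl fun v _ => ?_
    rw [Finsupp.mapDomain_single]

/-- (C) symbol of a cup product -/
theorem symb_cupP {a b : ℕ} (x : CobP p a) (y : CobP p b) (l₁ l₂ : List Ex)
    (h₁ : l₁.length = a) (h₂ : l₂.length = b) :
    symb (a + b) (cupP x y) (l₁ ++ l₂) = symb a x l₁ * symb b y l₂ := by
  have hR : Red p (l₁ ++ l₂) ↔ Red p l₁ ∧ Red p l₂ := by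
    unfold Red
    constructor
    · intro h
      exact ⟨fun m hm => h m (List.mem_append_left _ hm), fun m hm =>
        h m (List.mem_append_right _ hm)⟩
    · rintro ⟨h1, h2⟩ m hm
      rcases List.mem_append.1 hm with h | h
      · exact h1 m h
      · exact h2 m h
  have hL : (l₁ ++ l₂).length = a + b := by rw [List.length_append, h₁, h₂]
  unfold symb
  by_cases hr1 : Red p l₁
  · by_cases hr2 : Red p l₂
    · rw [if_pos ⟨hL, hR.2 ⟨hr1, hr2⟩⟩, if_pos ⟨h₁, hr1⟩, if_pos ⟨h₂, hr2⟩, toE_append h₁, cupP,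
        coeff_rename_mul_rename]
      · rw [fac, fac, fac, List.map_append, List.prod_append]
        push_cast
        ring
      · rintro ⟨k, i⟩ ⟨k', i'⟩ h
        rw [Prod.mk.injEq] at h
        exact Prod.ext (Fin.castAdd_injective _ _ h.1) h.2
      · rintro ⟨k, i⟩ ⟨k', i'⟩ h
        rw [Prod.mk.injEq] at h
        exact Prod.ext (Fin.natAdd_injective _ _ h.1) h.2
      · rintro ⟨k, i⟩ ⟨k', i'⟩ h
        rw [Prod.mk.injEq] at h
        have := congrArg Fin.val h.1
        simp only [Fin.val_castAdd, Fin.val_natAdd] at this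
        have := k.2
        omega
    · rw [if_neg (fun h => hr2 (hR.1 h.2).2), if_neg (c := l₂.length = b ∧ _) (fun h => hr2 h.2),
        mul_zero]
  · rw [if_neg (fun h => hr1 (hR.1 h.2).1), if_neg (fun h => hr1 h.2), zero_mul]

theorem Fil_cup {a b s t : ℕ} {x : CobP p a} {y : CobP p b} (hx : x ∈ Fil μ a s)
    (hy : y ∈ Fil μ b (t + 1)) : cupP x y ∈ Fil μ (a + b) (s + t) := by
  intro l hl
  by_cases hc : l.length = a + b
  · have h : l = l.take a ++ l.drop a := (List.take_append_drop a l).symm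
    have h1 : (l.take a).length = a := by rw [List.length_take]; omega
    have h2 : (l.drop a).length = b := by rw [List.length_drop]; omega
    rw [h, symb_cupP x y _ _ h1 h2]
    rw [h, lev, List.map_append, List.sum_append] at hl
    by_cases h3 : s ≤ lev μ (l.take a)
    · rw [hx _ h3, zero_mul]
    · rw [hy (l.drop a), mul_zero]
      rw [lev] at h3 ⊢
      omega
  · rw [symb, if_neg fun h => hc h.1]

end Vale.Agent.P257.H941

end
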