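import Vale.Agent.P257.H941.Cobd
import Vale.Agent.P257.H941.FilMul
import Vale.Agent.P257.H254.PageP
import Vale.Agent.P257.H327.Enum6
import Vale.Agent.P257.H545.VanP

/-!
# P257 / H941 / Beta : the cohomology of `CobP` vanishes in degree 6, weight `2p² + 4p + 2`
-/

noncomputable section

namespace Vale.Agent.P257.H941

open Vale.Agent.P257.H93 Vale.Agent.P257.H134 Vale.Agent.P257.H254
open Vale.Agent.P257.H632 hiding dg

variable {p : ℕ}

/-- the weight `2i - 1` on `h_{ij}` -/
def may (v : ℕ × ℕ) : ℕ := 2 * v.1 + 1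

theorem isMu_may (hp : 2 ≤ p) : IsMu p may where
  split i j a h := by simp only [may]; omega
  frob i j := by
    simp only [may]
    nlinarith

theorem of_mon {r : EI (ℕ × ℕ)} {x : H327.Mon} (h : (⟨r.1, r.2⟩ : H327.Mon) = x)
    {a b : List (ℕ × ℕ)} (h1 : x.h = a.toFinset) (h2 : x.b = bl b) : r = mab a b :=
  Prod.ext ((congrArg H327.Mon.h h).trans h1) ((congrArg H327.Mon.b h).trans h2)

theorem mab_ne {a b a' b' : List (ℕ × ℕ)} (h : a.toFinset ≠ a'.toFinset) : mab a b ≠ mab a' b' :=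
  fun h' => h (congrArg Prod.fst h')

variable [hp : Fact p.Prime] {μ : ℕ × ℕ → ℕ}

/-- value of `Θ` of a word on its own monomial -/
theorem Th_cab_self (hμ : IsMu p μ) (hp2 : 2 < p) {n : ℕ} {a b : List (ℕ × ℕ)}
    (hn : a.length + 2 * b.length = n) (ha : a.Nodup) (m : ℤ) (h : snl a = m) :
    Th n (mab a b) (cab p n a b) = (m : ZMod p) := by
  rw [Th_cab hμ hp2 hn _ (levM_mab μ ha).ge, ← h]
  exact if_pos rfl

theorem Th_cab_ne (hμ : IsMu p μ) (hp2 : 2 < p) {n : ℕ} {a b a' b' : List (ℕ × ℕ)}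
    (hn : a.length + 2 * b.length = n) (ha' : a'.Nodup) (hl : la p μ a b ≤ la p μ a' b')
    (h : a'.toFinset ≠ a.toFinset) : Th n (mab a' b') (cab p n a b) = 0 := by
  rw [Th_cab hμ hp2 hn _ (hl.trans (levM_mab μ ha').ge)]
  exact if_neg (mab_ne (b' := b) h)

/-- value of `Θ` on the coboundary of a word -/
theorem Th_dP_cab_eq (hμ : IsMu p μ) (hp2 : 2 < p) {n : ℕ} {a b a' : List (ℕ × ℕ)}
    (hn : a.length + 2 * b.length = n) (ha' : a'.Nodup) (hl : la p μ a b ≤ la p μ a' b + 1)
    (m : ℤ) (h : KT a'.toFinset a = m) :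
    Th (n + 1) (mab a' b) (dP n (cab p n a b)) = (m : ZMod p) := by
  rw [Th_dP_cab hμ hp2 hn _ (hl.trans (Nat.succ_le_succ (levM_mab μ ha').ge)), ← h]
  exact if_pos rfl

theorem cab_mem' (hμ : IsMu p μ) (n : ℕ) {a b : List (ℕ × ℕ)} {m : ℕ} (h : la p μ a b = m) :
    cab p n a b ∈ Fil μ n (m + 1) := by
  rw [← h]; exact cab_mem hμ n a b

theorem cab_mem_WtP' (n : ℕ) {a b : List (ℕ × ℕ)} {W : ℕ} (h : la p (wD p) a b = W) :
    cab p n a b ∈ WtP p n W := by
  rw [← h]; exact cab_mem_WtP n a b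

theorem dP_cab_mem' (hμ : IsMu p μ) (n : ℕ) {a b : List (ℕ × ℕ)} {m : ℕ}
    (h : la p μ a b = m + 1) : dP n (cab p n a b) ∈ Fil μ (n + 1) (m + 1) := by
  rw [← h]; exact dP_cab_mem hμ n a b

/-- (beta) -/
theorem beta (h11 : 11 ≤ p) {z : CobP p 6} (hz : z ∈ WtP p 6 (2 * p ^ 2 + 4 * p + 2))
    (hd : dP 6 z = 0) : ∃ y ∈ WtP p 5 (2 * p ^ 2 + 4 * p + 2), z = dP 5 y := by
  classical
  have hp2 : 2 < p := by omega
  have hμ : IsMu p may := isMu_may (by omega)
  have P : Page (ZMod p) (dL p 5) (dL p 6) (WtP p 5 (2 * p ^ 2 + 4 * p + 2))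
      (WtP p 6 (2 * p ^ 2 + 4 * p + 2)) (Fil may 6) (Fil may 7)
      (fun r : MonSW p 6 (2 * p ^ 2 + 4 * p + 2) => levM p may r.1) (fun r => ThL p 6 r.1)
      (fun r : MonSW p 7 (2 * p ^ 2 + 4 * p + 2) => levM p may r.1) (fun r => ThL p 7 r.1) :=
    page hμ hp2 5 (2 * p ^ 2 + 4 * p + 2) (fun _ => Fil_zero) (fun _ w => H941.exists_mem_Fil may w)
  -- the monomials
  have key : ∀ r : MonSW p 6 (2 * p ^ 2 + 4 * p + 2),
      r.1 = mab [(0,0), (0,1), (1,0), (1,1)] [(1,0)] ∨
      r.1 = mab [(0,0), (0,1), (1,1), (2,0)] [(0,0)] ∨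
      r.1 = mab [(0,1), (0,2), (1,0), (2,0)] [(0,0)] ∨
      r.1 = mab [(1,0), (2,0)] [(0,0), (1,0)] := by
    intro r
    rcases H327.enum_beta p 0 h11 (by nlinarith) ⟨r.1.1, r.1.2⟩ r.2.1
      (by rw [mul_zero, add_zero]; exact r.2.2) with h | h | h | h
    · exact Or.inl (of_mon h rfl (by simp [H327.Mon.mk4, bl]))
    · exact Or.inr (Or.inl (of_mon h rfl (by simp [H327.Mon.mk4, bl])))
    · exact Or.inr (Or.inr (Or.inl (of_mon h rfl (by simp [H327.Mon.mk4, bl]))))
    · exact Or.inr (Or.inr (Or.inr (of_mon h rfl (by simp [H327.Mon.mk4, bl]))))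
  -- the levels
  have l1 : la p may [(0,0), (0,1), (1,0), (1,1)] [(1,0)] = 8 + 3 * p := by
    simp [la, may]; ring
  have l2 : la p may [(0,0), (0,1), (1,1), (2,0)] [(0,0)] = 10 + p := by simp [la, may]
  have l3 : la p may [(0,1), (0,2), (1,0), (2,0)] [(0,0)] = 10 + p := by simp [la, may]
  have l4 : la p may [(1,0), (2,0)] [(0,0), (1,0)] = 8 + 4 * p := by simp [la, may]; ring
  have m1 := levM_mab (p := p) may (a := [(0,0), (0,1), (1,0), (1,1)]) (b := [(1,0)]) (by decide)
  have m2 := levM_mab (p := p) may (a := [(0,0), (0,1), (1,1), (2,0)]) (b := [(0,0)]) (by decide)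
  have m3 := levM_mab (p := p) may (a := [(0,1), (0,2), (1,0), (2,0)]) (b := [(0,0)]) (by decide)
  have m4 := levM_mab (p := p) may (a := [(1,0), (2,0)]) (b := [(0,0), (1,0)]) (by decide)
  have x1 : la p may [(0,1), (1,0), (2,0)] [(1,0)] = 9 + 3 * p := by simp [la, may]; ring
  have x2 : la p may [(1,0), (1,1), (2,0)] [(0,0)] = 11 + p := by simp [la, may]
  refine P.echelon (dL_dL 5) (ι := Fin 2)
    ![cab p 6 [(1,0), (2,0)] [(0,0), (1,0)], cab p 6 [(0,0), (0,1), (1,1), (2,0)] [(0,0)]]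
    ![8 + 4 * p, 10 + p] ![7 + 4 * p, 9 + p] ?_ ?_ ?_ ?_ ?_ ?_ z hz hd
  · rw [Fin.forall_fin_two]
    simp only [Matrix.cons_val_zero, Matrix.cons_val_one]
    refine ⟨cab_mem_WtP' (p := p) 6 ?_, cab_mem_WtP' (p := p) 6 ?_⟩
    · simp [la, wD, Finset.sum_range_succ]; ring
    · simp [la, wD, Finset.sum_range_succ]; ring
  · rw [Fin.forall_fin_two]
    simp only [Matrix.cons_val_zero, Matrix.cons_val_one]
    exact ⟨cab_mem' (p := p) hμ 6 l4, cab_mem' (p := p) hμ 6 l2⟩
  · rw [Fin.forall_fin_two]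
    simp only [Matrix.cons_val_zero, Matrix.cons_val_one, dL_apply]
    exact ⟨dP_cab_mem' (p := p) hμ 6 (l4.trans (by ring)),
      dP_cab_mem' (p := p) hμ 6 (l2.trans (by ring))⟩
  · rw [Fin.forall_fin_two]
    simp only [Matrix.cons_val_zero, Matrix.cons_val_one]
    omega
  · intro n w _ _ _
    by_cases h4 : n = 8 + 4 * p
    · refine ⟨![Th 6 (mab [(1,0), (2,0)] [(0,0), (1,0)]) w, 0], ?_, 0, zero_mem _, ?_, ?_⟩
      · rw [Fin.forall_fin_two]
        simp [h4]
      · rw [map_zero]; exact zero_mem _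
      · intro r hr
        change levM p may r.1 = n at hr
        rw [Fin.sum_univ_two, map_zero, map_zero, add_zero]
        simp only [Matrix.cons_val_zero, Matrix.cons_val_one, ThL_apply, zero_mul, add_zero]
        rcases key r with h | h | h | h
        · rw [h, m1, l1] at hr; omega
        · rw [h, m2, l2] at hr; omega
        · rw [h, m3, l3] at hr; omega
        · rw [h, Th_cab_self (n := 6) hμ hp2 rfl (by decide) 1 (by decide)]
          simp
    by_cases h2 : n = 10 + p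
    · refine ⟨![0, Th 6 (mab [(0,0), (0,1), (1,1), (2,0)] [(0,0)]) w -
          Th 6 (mab [(0,1), (0,2), (1,0), (2,0)] [(0,0)]) w], ?_,
        Th 6 (mab [(0,1), (0,2), (1,0), (2,0)] [(0,0)]) w • cab p 5 [(1,0), (1,1), (2,0)] [(0,0)],
        ?_, ?_, ?_⟩
      · rw [Fin.forall_fin_two]
        simp [h2]
      · refine Submodule.smul_mem _ _ (cab_mem_WtP' (p := p) 5 ?_)
        simp [la, wD, Finset.sum_range_succ]; ring
      · rw [map_smul]
        refine Submodule.smul_mem _ _ ?_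
        rw [h2]
        exact dP_cab_mem' (p := p) hμ 5 (x2.trans (by ring))
      · intro r hr
        change levM p may r.1 = n at hr
        rw [Fin.sum_univ_two, map_smul, map_smul]
        simp only [Matrix.cons_val_zero, Matrix.cons_val_one, ThL_apply, dL_apply, zero_mul,
          zero_add]
        rcases key r with h | h | h | h
        · rw [h, m1, l1] at hr; omega
        · rw [h, Th_cab_self (n := 6) hμ hp2 rfl (by decide) 1 (by decide),
            Th_dP_cab_eq (n := 5) hμ hp2 rfl (by decide) (by rw [x2, l2]; omega) 1 (by decide)]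
          simp
        · rw [h, Th_cab_ne (n := 6) hμ hp2 rfl (by decide) (by rw [l2, l3]) (by decide),
            Th_dP_cab_eq (n := 5) hμ hp2 rfl (by decide) (by rw [x2, l3]; omega) 1 (by decide)]
          simp
        · rw [h, m4, l4] at hr; omega
    by_cases h1 : n = 8 + 3 * p
    · refine ⟨0, fun k hk => absurd rfl hk,
        Th 6 (mab [(0,0), (0,1), (1,0), (1,1)] [(1,0)]) w • cab p 5 [(0,1), (1,0), (2,0)] [(1,0)],
        ?_, ?_, ?_⟩
      · refine Submodule.smul_mem _ _ (cab_mem_WtP' (p := p) 5 ?_)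
        simp [la, wD, Finset.sum_range_succ]; ring
      · rw [map_smul]
        refine Submodule.smul_mem _ _ ?_
        rw [h1]
        exact dP_cab_mem' (p := p) hμ 5 (x1.trans (by ring))
      · intro r hr
        change levM p may r.1 = n at hr
        rw [map_smul, map_smul]
        simp only [ThL_apply, dL_apply, Pi.zero_apply, zero_mul, Finset.sum_const_zero, zero_add]
        rcases key r with h | h | h | h
        · rw [h, Th_dP_cab_eq (n := 5) hμ hp2 rfl (by decide) (by rw [x1, l1]; omega) 1 (by decide)]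
          simp
        · rw [h, m2, l2] at hr; omega
        · rw [h, m3, l3] at hr; omega
        · rw [h, m4, l4] at hr; omega
    · refine ⟨0, fun k hk => absurd rfl hk, 0, zero_mem _, ?_, ?_⟩
      · rw [map_zero]; exact zero_mem _
      · intro r hr
        change levM p may r.1 = n at hr
        rcases key r with h | h | h | h
        · rw [h, m1, l1] at hr; omega
        · rw [h, m2, l2] at hr; omega
        · rw [h, m3, l3] at hr; omega
        · rw [h, m4, l4] at hr; omega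
  · intro L c hc h
    rw [Fin.forall_fin_two] at hc
    simp only [Matrix.cons_val_zero, Matrix.cons_val_one] at hc
    have y1 : la p may [(0,0), (0,1), (2,0)] [(0,0), (1,0)] = 7 + 4 * p := by simp [la, may]; ring
    have y2 : la p may [(0,0), (0,1), (0,2), (1,0), (1,1)] [(0,0)] = 9 + p := by simp [la, may]
    let τ1 : MonSW p 7 (2 * p ^ 2 + 4 * p + 2) :=
      ⟨mab [(0,0), (0,1), (2,0)] [(0,0), (1,0)], degM_mab (by decide), by
        rw [levM_mab _ (by decide)]
        simp [la, wD, Finset.sum_range_succ]; ring⟩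
    let τ2 : MonSW p 7 (2 * p ^ 2 + 4 * p + 2) :=
      ⟨mab [(0,0), (0,1), (0,2), (1,0), (1,1)] [(0,0)], degM_mab (by decide), by
        rw [levM_mab _ (by decide)]
        simp [la, wD, Finset.sum_range_succ]; ring⟩
    have c0 : c 0 = 0 := by
      by_contra hk
      have hL := hc.1 hk
      have hc1 : c 1 = 0 := by
        by_contra hk'
        have := hc.2 hk'
        omega
      have h3 := h τ1 ((levM_mab (p := p) may (by decide)).trans (y1.trans hL))
      rw [Fin.sum_univ_two, hc1, zero_mul, add_zero] at h3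
      change c 0 * Th 7 (mab [(0,0), (0,1), (2,0)] [(0,0), (1,0)])
        (dP 6 (cab p 6 [(1,0), (2,0)] [(0,0), (1,0)])) = 0 at h3
      rw [Th_dP_cab_eq (n := 6) hμ hp2 rfl (by decide) (by rw [l4, y1]; omega) (-1) (by decide)]
        at h3
      exact hk (by simpa using h3)
    have c1 : c 1 = 0 := by
      by_contra hk
      have hL := hc.2 hk
      have h3 := h τ2 ((levM_mab (p := p) may (by decide)).trans (y2.trans hL))
      rw [Fin.sum_univ_two, c0, zero_mul, zero_add] at h3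
      change c 1 * Th 7 (mab [(0,0), (0,1), (0,2), (1,0), (1,1)] [(0,0)])
        (dP 6 (cab p 6 [(0,0), (0,1), (1,1), (2,0)] [(0,0)])) = 0 at h3
      rw [Th_dP_cab_eq (n := 6) hμ hp2 rfl (by decide) (by rw [l2, y2]; omega) (-1) (by decide)]
        at h3
      exact hk (by simpa using h3)
    funext k
    fin_cases k
    · exact c0
    · exact c1

theorem vanP_beta (h11 : 11 ≤ p) :
    H545.VanP p 6 (((p : ℤ) - 1) * (2 * p ^ 2 + 4 * p + 2)) := by
  have hw : ((p : ℤ) - 1) * (2 * p ^ 2 + 4 * p + 2) =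
      ((p - 1 : ℕ) : ℤ) * ((2 * p ^ 2 + 4 * p + 2 : ℕ) : ℤ) := by
    rw [Nat.cast_sub (by omega)]
    push_cast
    ring
  rw [hw]
  intro c hc hd
  obtain ⟨y, hy, h⟩ := beta h11 (mem_WtP.2 hc) hd
  exact ⟨y, mem_WtP.1 hy, h.symm⟩

end Vale.Agent.P257.H941

end
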