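import Vale.Agent.P257.H254.Words

/-!
# P257 / H941 / Cobd : coboundaries of words in `h_v`, `b_v`

For a word `w` the coboundary is a sum of signed words: `dk w` (a letter `h` is differentiated) and
`db w` (a letter `b` is differentiated).  The words of `dk w` have a smaller level, those of `db w`
are at least `p + 1` lower.
-/

noncomputable section

namespace Vale.Agent.P257.H941

open Vale.Agent.P257.H93 Vale.Agent.P257.H134 Vale.Agent.P257.H254
open Vale.Agent.P257.H632 hiding dg

variable {p : ℕ}

/-- the terms of the coboundary of a word in which an exterior letter is differentiated -/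
def dk : List Lt → List (ℤ × List Lt)
  | [] => []
  | .h v :: w => (dk w).map (fun x => (x.1, Lt.h v :: x.2)) ++
      (List.range v.1).map fun a =>
        (-(-1) ^ dg w, Lt.h (v.1 - (a + 1), v.2 + a + 1) :: Lt.h (a, v.2) :: w)
  | .b v :: w => (dk w).map fun x => (x.1, Lt.b v :: x.2)

/-- the terms of the coboundary of a word in which a polynomial letter is differentiated -/
def db : List Lt → List (ℤ × List Lt)
  | [] => []
  | .h v :: w => (db w).map fun x => (x.1, Lt.h v :: x.2)
  | .b v :: w => (db w).map (fun x => (x.1, Lt.b v :: x.2)) ++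
      ((List.range v.1).map (fun a =>
        ((-1) ^ dg w, Lt.h (v.1 - (a + 1), v.2 + a + 2) :: Lt.b (a, v.2) :: w)) ++
      (List.range v.1).map fun a =>
        (-(-1) ^ dg w, Lt.b (v.1 - (a + 1), v.2 + a + 1) :: Lt.h (a, v.2 + 1) :: w))

theorem dg_dk {w : List Lt} : ∀ x ∈ dk w, dg x.2 = dg w + 1 := by
  induction w with
  | nil => simp [dk]
  | cons a w ih =>
    cases a with
    | h v =>
      intro x hx
      rw [dk, List.mem_append, List.mem_map, List.mem_map] at hx
      rcases hx with ⟨y, hy, rfl⟩ | ⟨a, _, rfl⟩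
      · simp [ih y hy]
      · simp
    | b v =>
      intro x hx
      rw [dk, List.mem_map] at hx
      obtain ⟨y, hy, rfl⟩ := hx
      simp [ih y hy]

theorem dg_db {w : List Lt} : ∀ x ∈ db w, dg x.2 = dg w + 1 := by
  induction w with
  | nil => simp [db]
  | cons a w ih =>
    cases a with
    | h v =>
      intro x hx
      rw [db, List.mem_map] at hx
      obtain ⟨y, hy, rfl⟩ := hx
      simp [ih y hy]
    | b v =>
      intro x hx
      rw [db, List.mem_append, List.mem_append, List.mem_map, List.mem_map, List.mem_map] at hx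
      rcases hx with ⟨y, hy, rfl⟩ | ⟨a, _, rfl⟩ | ⟨a, _, rfl⟩
      · simp [ih y hy]
      · simp
      · simp

/-! ### words in a given degree -/

section

variable [hp : Fact p.Prime]

/-- the cochain of a word of degree `n` -/
def cwn (p : ℕ) [Fact p.Prime] (n : ℕ) (w : List Lt) : CobP p n :=
  if h : dg w = n then castP h (cw p w) else 0

theorem cwn_self (w : List Lt) : cwn p (dg w) w = cw p w := by
  rw [cwn, dif_pos rfl, castP_self]

theorem castP_cwn {n m : ℕ} (h : n = m) (w : List Lt) : castP h (cwn p n w) = cwn p m w := by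
  subst h
  rw [castP_self]

theorem RH_cwn (v : ℕ × ℕ) (n : ℕ) (w : List Lt) :
    RH v n (cwn p n w) = cwn p (n + 1) (Lt.h v :: w) := by
  by_cases h : dg w = n
  · subst h
    rw [cwn_self]
    exact (cwn_self (Lt.h v :: w)).symm
  · rw [cwn, dif_neg h, cwn, dif_neg (by simpa using h), map_zero]

theorem RB_cwn (v : ℕ × ℕ) (n : ℕ) (w : List Lt) :
    RB v n (cwn p n w) = cwn p (n + 2) (Lt.b v :: w) := by
  by_cases h : dg w = n
  · subst h
    rw [cwn_self]
    exact (cwn_self (Lt.b v :: w)).symm
  · rw [cwn, dif_neg h, cwn, dif_neg (by simpa using h), map_zero]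

/-- the value of a list of signed words -/
def sw (p : ℕ) [Fact p.Prime] (n : ℕ) (l : List (ℤ × List Lt)) : CobP p n :=
  (l.map fun x => x.1 • cwn p n x.2).sum

theorem sw_nil (n : ℕ) : sw p n [] = 0 := rfl

theorem sw_cons (n : ℕ) (x : ℤ × List Lt) (l : List (ℤ × List Lt)) :
    sw p n (x :: l) = x.1 • cwn p n x.2 + sw p n l := by
  rw [sw, List.map_cons, List.sum_cons, sw]

theorem sw_append (n : ℕ) (l l' : List (ℤ × List Lt)) :
    sw p n (l ++ l') = sw p n l + sw p n l' := by
  rw [sw, List.map_append, List.sum_append, sw, sw]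

theorem RH_sw (v : ℕ × ℕ) (n : ℕ) (l : List (ℤ × List Lt)) :
    RH v n (sw p n l) = sw p (n + 1) (l.map fun x => (x.1, Lt.h v :: x.2)) := by
  induction l with
  | nil => rw [sw_nil, map_zero, List.map_nil, sw_nil]
  | cons x l ih => rw [sw_cons, map_add, ih, List.map_cons, sw_cons, map_zsmul, RH_cwn]

theorem RB_sw (v : ℕ × ℕ) (n : ℕ) (l : List (ℤ × List Lt)) :
    RB v n (sw p n l) = sw p (n + 2) (l.map fun x => (x.1, Lt.b v :: x.2)) := by
  induction l with
  | nil => rw [sw_nil, map_zero, List.map_nil, sw_nil]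
  | cons x l ih => rw [sw_cons, map_add, ih, List.map_cons, sw_cons, map_zsmul, RB_cwn]

theorem castP_sw {n m : ℕ} (h : n = m) (l : List (ℤ × List Lt)) :
    castP h (sw p n l) = sw p m l := by
  subst h
  rw [castP_self]

theorem sw_map_range (n m : ℕ) (c : ℤ) (f : ℕ → List Lt) :
    sw p n ((List.range m).map fun a => (c, f a)) = c • ∑ a ∈ Finset.range m, cwn p n (f a) := by
  induction m with
  | zero => rw [List.range_zero, List.map_nil, sw_nil, Finset.sum_range_zero, smul_zero]
  | succ m ih =>
    rw [List.range_succ, List.map_append, sw_append, ih, Finset.sum_range_succ, smul_add,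
      List.map_cons, List.map_nil, sw_cons, sw_nil, add_zero]

/-- The coboundary of a word. -/
theorem dP_cw (w : List Lt) : dP (dg w) (cw p w) = sw p (dg w + 1) (dk w ++ db w) := by
  induction w with
  | nil =>
    change dP 0 (1 : CobP p 0) = 0
    rw [dP_apply, Finset.sum_range_succ, Finset.sum_range_one, map_one, map_one]
    simp
  | cons a w ih =>
    cases a with
    | h v =>
      have h1 := dP_RH v.1 v.2 (cw p w)
      change dP (dg w + 1) (RH (v.1, v.2) (dg w) (cw p w)) = _
      rw [h1, ih, RH_sw, dk, db, List.map_append, sw_append, sw_append, sw_append,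
        sw_map_range, neg_smul]
      have h2 : ∀ a ∈ Finset.range v.1, (RH (v.1 - (a + 1), v.2 + a + 1) (dg w + 1)
          (RH (a, v.2) (dg w) (cw p w)) : CobP p (dg w + 1 + 1)) =
          cwn p (dg w + 1 + 1) (Lt.h (v.1 - (a + 1), v.2 + a + 1) :: Lt.h (a, v.2) :: w) := by
        intro a _
        rw [← RH_cwn, ← RH_cwn, cwn_self]
      rw [Finset.sum_congr rfl h2]
      simp only [dg]
      abel
    | b v =>
      have h1 := dP_RB v.1 v.2 (cw p w) (by omega)
      change dP (dg w + 2) (RB (v.1, v.2) (dg w) (cw p w)) = _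
      rw [h1, ih, RB_sw, castP_sw, dk, db, List.map_append, sw_append, sw_append, sw_append,
        sw_append, sw_map_range, sw_map_range, neg_smul]
      have h2 : ∀ a ∈ Finset.range v.1, ((RH (v.1 - (a + 1), v.2 + a + 2) (dg w + 2)
          (RB (a, v.2) (dg w) (cw p w)) : CobP p (dg w + 3)) -
          castP (by omega) (RB (v.1 - (a + 1), v.2 + a + 1) (dg w + 1)
            (RH (a, v.2 + 1) (dg w) (cw p w)))) =
          cwn p (dg w + 3) (Lt.h (v.1 - (a + 1), v.2 + a + 2) :: Lt.b (a, v.2) :: w) -
          cwn p (dg w + 3) (Lt.b (v.1 - (a + 1), v.2 + a + 1) :: Lt.h (a, v.2 + 1) :: w) := by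
        intro a _
        congr 1
        · have := RH_cwn (p := p) (v.1 - (a + 1), v.2 + a + 2) (dg w + 2) (Lt.b (a, v.2) :: w)
          rw [← this, ← RB_cwn, cwn_self]
        · rw [← castP_cwn (n := dg w + 1 + 2) (m := dg w + 3) (by omega), ← RB_cwn, ← RH_cwn,
            cwn_self]
      rw [Finset.sum_congr rfl h2, Finset.sum_sub_distrib, smul_sub]
      simp only [dg]
      abel

/-! ### levels -/

variable {μ : ℕ × ℕ → ℕ}

omit hp in
theorem lw_dk (hμ : IsMu p μ) {w : List Lt} : ∀ x ∈ dk w, lw p μ x.2 + 1 ≤ lw p μ w := by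
  induction w with
  | nil => simp [dk]
  | cons a w ih =>
    cases a with
    | h v =>
      intro x hx
      rw [dk, List.mem_append, List.mem_map, List.mem_map] at hx
      rcases hx with ⟨y, hy, rfl⟩ | ⟨a, ha, rfl⟩
      · have := ih y hy
        simp only [lw]
        omega
      · have := hμ.split v.1 v.2 a (List.mem_range.1 ha)
        simp only [lw]
        rw [show v.2 + a + 1 = v.2 + (a + 1) by ring]
        have h2 : μ v = μ (v.1, v.2) := rfl
        omega
    | b v =>
      intro x hx
      rw [dk, List.mem_map] at hx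
      obtain ⟨y, hy, rfl⟩ := hx
      have := ih y hy
      simp only [lw]
      omega

omit hp in
theorem lw_db (hμ : IsMu p μ) {w : List Lt} : ∀ x ∈ db w, lw p μ x.2 + p + 1 ≤ lw p μ w := by
  induction w with
  | nil => simp [db]
  | cons a w ih =>
    cases a with
    | h v =>
      intro x hx
      rw [db, List.mem_map] at hx
      obtain ⟨y, hy, rfl⟩ := hx
      have := ih y hy
      simp only [lw]
      omega
    | b v =>
      intro x hx
      rw [db, List.mem_append, List.mem_append, List.mem_map, List.mem_map, List.mem_map] at hx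
      rcases hx with ⟨y, hy, rfl⟩ | ⟨a, ha, rfl⟩ | ⟨a, ha, rfl⟩
      · have := ih y hy
        simp only [lw]
        omega
      · have h1 := hμ.split v.1 v.2 a (List.mem_range.1 ha)
        have h2 := hμ.frob (v.1 - (a + 1)) (v.2 + (a + 1))
        have h3 : p * (μ (a, v.2) + μ (v.1 - (a + 1), v.2 + (a + 1)) + 1) ≤ p * μ (v.1, v.2) :=
          Nat.mul_le_mul_left _ h1
        rw [mul_add, mul_add, mul_one] at h3
        simp only [lw]
        rw [show v.2 + a + 2 = v.2 + (a + 1) + 1 by ring]
        have h4 : μ v = μ (v.1, v.2) := rfl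
        rw [h4]
        omega
      · have h1 := hμ.split v.1 v.2 a (List.mem_range.1 ha)
        have h2 := hμ.frob a v.2
        have h3 : p * (μ (a, v.2) + μ (v.1 - (a + 1), v.2 + (a + 1)) + 1) ≤ p * μ (v.1, v.2) :=
          Nat.mul_le_mul_left _ h1
        rw [mul_add, mul_add, mul_one] at h3
        simp only [lw]
        rw [show v.2 + a + 1 = v.2 + (a + 1) by ring]
        have h4 : μ v = μ (v.1, v.2) := rfl
        rw [h4]
        omega

theorem cwn_mem (hμ : IsMu p μ) (n : ℕ) (w : List Lt) : cwn p n w ∈ Fil μ n (lw p μ w + 1) := by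
  by_cases h : dg w = n
  · subst h
    rw [cwn_self]
    exact cw_mem hμ w
  · rw [cwn, dif_neg h]
    exact zero_mem _

theorem cwn_mem_WtP (n : ℕ) (w : List Lt) : cwn p n w ∈ WtP p n (lw p (wD p) w) := by
  by_cases h : dg w = n
  · subst h
    rw [cwn_self]
    exact cw_mem_WtP w
  · rw [cwn, dif_neg h]
    exact zero_mem _

theorem sw_mem (hμ : IsMu p μ) (n N : ℕ) (l : List (ℤ × List Lt))
    (h : ∀ x ∈ l, lw p μ x.2 + 1 ≤ N) : sw p n l ∈ Fil μ n N := by
  induction l with
  | nil => rw [sw_nil]; exact zero_mem _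
  | cons x l ih =>
    rw [sw_cons]
    refine add_mem (zsmul_mem (H254.Fil_mono μ n (h x List.mem_cons_self) (cwn_mem hμ n x.2)) _)
      (ih fun y hy => h y (List.mem_cons_of_mem _ hy))

/-- level of the coboundary of a word -/
theorem dP_cw_mem (hμ : IsMu p μ) (w : List Lt) :
    dP (dg w) (cw p w) ∈ Fil μ (dg w + 1) (lw p μ w) := by
  rw [dP_cw]
  apply sw_mem hμ
  intro x hx
  rcases List.mem_append.1 hx with h | h
  · exact lw_dk hμ x h
  · have := lw_db hμ x h
    omega

theorem dP_cwn_mem (hμ : IsMu p μ) (n : ℕ) (w : List Lt) :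
    dP n (cwn p n w) ∈ Fil μ (n + 1) (lw p μ w) := by
  by_cases h : dg w = n
  · subst h
    rw [cwn_self]
    exact dP_cw_mem hμ w
  · rw [cwn, dif_neg h, map_zero]
    exact zero_mem _

/-! ### values of `Θ` -/

open Classical in
/-- the coefficient of `r` in a list of signed words -/
def tot (r : EI (ℕ × ℕ)) (l : List (ℤ × List Lt)) : ℤ :=
  (l.map fun x => x.1 * if r = (hs x.2, bs x.2) then sn x.2 else 0).sum

theorem Th_cwn (hμ : IsMu p μ) (hp2 : 2 < p) {n : ℕ} {w : List Lt} (hw : dg w = n)
    (r : EI (ℕ × ℕ)) (hr : lw p μ w ≤ levM p μ r) :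
    Th n r (cwn p n w) = if r = (hs w, bs w) then (sn w : ZMod p) else 0 := by
  subst hw
  rw [cwn_self]
  exact Th_cw hμ hp2 w r hr

theorem Th_sw (hμ : IsMu p μ) (hp2 : 2 < p) (n : ℕ) (r : EI (ℕ × ℕ)) (l : List (ℤ × List Lt))
    (hl : ∀ x ∈ l, dg x.2 = n) (h : ∀ x ∈ l, lw p μ x.2 ≤ levM p μ r) :
    Th n r (sw p n l) = (tot r l : ZMod p) := by
  induction l with
  | nil => rw [sw_nil, Th_zero]; simp [tot]
  | cons x l ih =>
    have h2 : x.1 • cwn p n x.2 = (x.1 : ZMod p) • cwn p n x.2 := by
      rw [Int.cast_smul_eq_zsmul]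
    rw [sw_cons, Th_add, ih (fun y hy => hl y (List.mem_cons_of_mem _ hy))
      (fun y hy => h y (List.mem_cons_of_mem _ hy)), h2, Th_smul,
      Th_cwn hμ hp2 (hl x List.mem_cons_self) r (h x List.mem_cons_self), tot, tot,
      List.map_cons, List.sum_cons]
    push_cast
    congr 1

end

theorem levM_word (μ : ℕ × ℕ → ℕ) (w : List Lt) : levM p μ (hs w, bs w) ≤ lw p μ w := by
  induction w with
  | nil => simp [levM]
  | cons a w ih =>
    cases a with
    | h v =>
      simp only [hs, bs, lw]
      by_cases hv : v ∈ hs w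
      · rw [Finset.insert_eq_self.2 hv]
        omega
      · simp only [levM] at ih ⊢
        rw [Finset.sum_insert hv]
        omega
    | b v =>
      simp only [hs, bs, lw]
      simp only [levM] at ih ⊢
      rw [Finsupp.sum_add_index' (fun _ => by simp) (fun _ _ _ => by ring),
        Finsupp.sum_single_index (by simp), mul_add, one_mul]
      omega

theorem tot_append (r : EI (ℕ × ℕ)) (l l' : List (ℤ × List Lt)) :
    tot r (l ++ l') = tot r l + tot r l' := by
  rw [tot, List.map_append, List.sum_append, tot, tot]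

theorem tot_eq_zero {μ : ℕ × ℕ → ℕ} (r : EI (ℕ × ℕ)) (l : List (ℤ × List Lt))
    (h : ∀ x ∈ l, lw p μ x.2 < levM p μ r) : tot r l = 0 := by
  rw [tot]
  apply List.sum_eq_zero
  intro y hy
  obtain ⟨x, hx, rfl⟩ := List.mem_map.1 hy
  rw [if_neg, mul_zero]
  rintro rfl
  exact absurd (levM_word μ x.2) (not_le.2 (h x hx))

variable [hp : Fact p.Prime] {μ : ℕ × ℕ → ℕ}

/-- The leading part of the coboundary of a word consists of the terms `dk`. -/
theorem Th_dP_cw (hμ : IsMu p μ) (hp2 : 2 < p) (w : List Lt) (r : EI (ℕ × ℕ))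
    (hr : lw p μ w ≤ levM p μ r + 1) :
    Th (dg w + 1) r (dP (dg w) (cw p w)) = (tot r (dk w) : ZMod p) := by
  rw [dP_cw, Th_sw hμ hp2, tot_append, tot_eq_zero (p := p) (μ := μ) r (db w), add_zero]
  · intro x hx
    have := lw_db hμ x hx
    omega
  · intro x hx
    rcases List.mem_append.1 hx with h | h
    · exact dg_dk x h
    · exact dg_db x h
  · intro x hx
    rcases List.mem_append.1 hx with h | h
    · have := lw_dk hμ x h
      omega
    · have := lw_db hμ x h
      omega

theorem Th_dP_cwn (hμ : IsMu p μ) (hp2 : 2 < p) {n : ℕ} {w : List Lt} (hw : dg w = n)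
    (r : EI (ℕ × ℕ)) (hr : lw p μ w ≤ levM p μ r + 1) :
    Th (n + 1) r (dP n (cwn p n w)) = (tot r (dk w) : ZMod p) := by
  subst hw
  rw [cwn_self]
  exact Th_dP_cw hμ hp2 w r hr


/-! ### words with the exterior letters at the end -/

/-- the word with exterior letters `a` and polynomial letters `b` -/
def wd (a b : List (ℕ × ℕ)) : List Lt := a.map Lt.h ++ b.map Lt.b

/-- the Koszul coboundary on exterior letters -/
def kd : List (ℕ × ℕ) → List (ℤ × List (ℕ × ℕ))
  | [] => []
  | v :: w => (kd w).map (fun x => (x.1, v :: x.2)) ++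
      (List.range v.1).map fun a =>
        (-(-1) ^ w.length, (v.1 - (a + 1), v.2 + a + 1) :: (a, v.2) :: w)

/-- the sign of a list of exterior letters -/
def snl : List (ℕ × ℕ) → ℤ
  | [] => 1
  | v :: w => if v ∈ w then 0 else sg v w.toFinset * snl w

/-- the exponents of a list of polynomial letters -/
def bl (b : List (ℕ × ℕ)) : (ℕ × ℕ) →₀ ℕ := (b.map fun v => Finsupp.single v 1).sum

/-- the coefficient of `∏ h_v`, `v ∈ S`, in the Koszul coboundary -/
def KT (S : Finset (ℕ × ℕ)) (a : List (ℕ × ℕ)) : ℤ :=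
  ((kd a).map fun x => x.1 * if S = x.2.toFinset then snl x.2 else 0).sum

omit hp in
theorem wd_nil (b : List (ℕ × ℕ)) : wd [] b = b.map Lt.b := rfl

omit hp in
theorem wd_cons (v : ℕ × ℕ) (a b : List (ℕ × ℕ)) : wd (v :: a) b = Lt.h v :: wd a b := rfl

omit hp in
theorem dg_wd (a b : List (ℕ × ℕ)) : dg (wd a b) = a.length + 2 * b.length := by
  induction a with
  | nil =>
    rw [wd_nil]
    induction b with
    | nil => rfl
    | cons v b ih => simp only [List.map_cons, dg, ih, List.length_cons, List.length_nil]; ring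
  | cons v a ih => rw [wd_cons, dg, ih, List.length_cons]; ring

omit hp in
theorem hs_wd (a b : List (ℕ × ℕ)) : hs (wd a b) = a.toFinset := by
  induction a with
  | nil =>
    rw [wd_nil]
    induction b with
    | nil => rfl
    | cons v b ih => rw [List.map_cons, hs, ih]
  | cons v a ih => rw [wd_cons, hs, ih, List.toFinset_cons]

omit hp in
theorem bs_wd (a b : List (ℕ × ℕ)) : bs (wd a b) = bl b := by
  induction a with
  | nil =>
    rw [wd_nil]
    induction b with
    | nil => rfl
    | cons v b ih => rw [List.map_cons, bs, ih, bl, bl, List.map_cons, List.sum_cons, add_comm]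
  | cons v a ih => rw [wd_cons, bs, ih]

omit hp in
theorem sn_wd (a b : List (ℕ × ℕ)) : sn (wd a b) = snl a := by
  induction a with
  | nil =>
    rw [wd_nil]
    induction b with
    | nil => rfl
    | cons v b ih => rw [List.map_cons, sn, ih]
  | cons v a ih =>
    rw [wd_cons, sn, ih, hs_wd, snl]
    simp only [List.mem_toFinset]

omit hp in
theorem lw_wd (μ : ℕ × ℕ → ℕ) (a b : List (ℕ × ℕ)) :
    lw p μ (wd a b) = (a.map μ).sum + p * (b.map μ).sum := by
  induction a with
  | nil =>
    rw [wd_nil]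
    induction b with
    | nil => rfl
    | cons v b ih => rw [List.map_cons, lw, ih, List.map_cons, List.sum_cons]; simp; ring
  | cons v a ih => rw [wd_cons, lw, ih, List.map_cons, List.sum_cons]; ring

omit hp in
theorem dk_wd (a b : List (ℕ × ℕ)) : dk (wd a b) = (kd a).map fun x => (x.1, wd x.2 b) := by
  induction a with
  | nil =>
    rw [wd_nil]
    induction b with
    | nil => rfl
    | cons v b ih => rw [List.map_cons, dk, ih]; rfl
  | cons v a ih =>
    rw [wd_cons, dk, ih, kd, List.map_append, List.map_map, List.map_map, List.map_map]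
    congr 1
    refine List.map_congr_left fun x _ => ?_
    simp only [Function.comp_apply, dg_wd]
    rw [pow_add, pow_mul]
    simp
    rfl

omit hp in
open Classical in
theorem tot_dk_wd (r : EI (ℕ × ℕ)) (a b : List (ℕ × ℕ)) :
    tot r (dk (wd a b)) = if r.2 = bl b then KT r.1 a else 0 := by
  rw [dk_wd, tot, List.map_map]
  by_cases h : r.2 = bl b
  · rw [if_pos h, KT]
    congr 1
    refine List.map_congr_left fun x _ => ?_
    simp only [Function.comp_apply, hs_wd, bs_wd, sn_wd]
    congr 1
    by_cases h1 : r.1 = x.2.toFinset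
    · rw [if_pos h1, if_pos]
      exact Prod.ext h1 h
    · rw [if_neg h1, if_neg]
      rintro rfl
      exact h1 rfl
  · rw [if_neg h]
    apply List.sum_eq_zero
    intro y hy
    obtain ⟨x, hx, rfl⟩ := List.mem_map.1 hy
    simp only [Function.comp_apply, hs_wd, bs_wd, sn_wd]
    rw [if_neg, mul_zero]
    rintro rfl
    exact h rfl

/-- the cochain in degree `n` of the word with exterior letters `a`, polynomial letters `b` -/
abbrev cab (p : ℕ) [Fact p.Prime] (n : ℕ) (a b : List (ℕ × ℕ)) : CobP p n := cwn p n (wd a b)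

/-- the level of the monomial with letters `a`, `b` -/
def la (p : ℕ) (μ : ℕ × ℕ → ℕ) (a b : List (ℕ × ℕ)) : ℕ := (a.map μ).sum + p * (b.map μ).sum

theorem cab_mem (hμ : IsMu p μ) (n : ℕ) (a b : List (ℕ × ℕ)) :
    cab p n a b ∈ Fil μ n (la p μ a b + 1) := by
  have := cwn_mem (p := p) hμ n (wd a b)
  rwa [lw_wd] at this

theorem cab_mem_WtP (n : ℕ) (a b : List (ℕ × ℕ)) : cab p n a b ∈ WtP p n (la p (wD p) a b) := by
  have := cwn_mem_WtP (p := p) n (wd a b)
  rwa [lw_wd] at this

theorem dP_cab_mem (hμ : IsMu p μ) (n : ℕ) (a b : List (ℕ × ℕ)) :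
    dP n (cab p n a b) ∈ Fil μ (n + 1) (la p μ a b) := by
  have := dP_cwn_mem (p := p) hμ n (wd a b)
  rwa [lw_wd] at this

open Classical in
theorem Th_cab (hμ : IsMu p μ) (hp2 : 2 < p) {n : ℕ} {a b : List (ℕ × ℕ)}
    (hn : a.length + 2 * b.length = n) (r : EI (ℕ × ℕ)) (hr : la p μ a b ≤ levM p μ r) :
    Th n r (cab p n a b) = if r = (a.toFinset, bl b) then (snl a : ZMod p) else 0 := by
  rw [cab, Th_cwn hμ hp2 (by rw [dg_wd, hn]) r (by rwa [lw_wd]), hs_wd, bs_wd, sn_wd]

open Classical in
theorem Th_dP_cab (hμ : IsMu p μ) (hp2 : 2 < p) {n : ℕ} {a b : List (ℕ × ℕ)}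
    (hn : a.length + 2 * b.length = n) (r : EI (ℕ × ℕ)) (hr : la p μ a b ≤ levM p μ r + 1) :
    Th (n + 1) r (dP n (cab p n a b)) = if r.2 = bl b then (KT r.1 a : ZMod p) else 0 := by
  rw [cab, Th_dP_cwn hμ hp2 (by rw [dg_wd, hn]) r (by rwa [lw_wd]), tot_dk_wd]
  split_ifs <;> simp

/-- the monomial with letters `a`, `b` -/
def mab (a b : List (ℕ × ℕ)) : EI (ℕ × ℕ) := (a.toFinset, bl b)

omit hp in
theorem levM_mab (μ : ℕ × ℕ → ℕ) {a b : List (ℕ × ℕ)} (ha : a.Nodup) :
    levM p μ (mab a b) = la p μ a b := by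
  have h1 : ∑ v ∈ a.toFinset, μ v = (a.map μ).sum := List.sum_toFinset μ ha
  have h2 : (bl b).sum (fun v c => c * μ v) = (b.map μ).sum := by
    induction b with
    | nil => simp [bl]
    | cons v b ih =>
      rw [bl, List.map_cons, List.sum_cons, Finsupp.sum_add_index' (fun _ => by simp)
        (fun _ _ _ => by ring), Finsupp.sum_single_index (by simp), one_mul, List.map_cons,
        List.sum_cons, ← ih, bl]
  rw [levM, mab, la]
  simp only
  rw [h1, h2]

omit hp in
theorem degM_mab {a b : List (ℕ × ℕ)} (ha : a.Nodup) :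
    degM (mab a b) = a.length + 2 * b.length := by
  have h2 : (bl b).sum (fun _ c => c) = b.length := by
    induction b with
    | nil => simp [bl]
    | cons v b ih =>
      rw [bl, List.map_cons, List.sum_cons, Finsupp.sum_add_index' (fun _ => rfl)
        (fun _ _ _ => rfl), Finsupp.sum_single_index rfl, List.length_cons, ← ih, bl]
      ring
  rw [degM, mab]
  simp only
  rw [h2, List.toFinset_card_of_nodup ha]

end Vale.Agent.P257.H941

end
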