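import Mathlib

/-!
# P257 / H941 / Divide : division by a central cocycle

`dD : D → E`, `dE : E → E'` is the complex in weight `W - |b|`, degrees `s-2, s-1, s`, and
`d0 : A → B`, `d1 : B → C` the complex in weight `W`, degrees `s-1, s, s+1`; `β`, `β'` are the
multiplications by `b`.  If every monomial of `(s, W)` is divisible by `b` then every cocycle in
`B` is of the form `d0 x + β y` with `y` a cocycle.
-/

namespace Vale.Agent.P257.H941

variable {K A B C D E E' : Type*} [Field K] [AddCommGroup A] [Module K A]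
  [AddCommGroup B] [Module K B] [AddCommGroup C] [Module K C] [AddCommGroup D] [Module K D]
  [AddCommGroup E] [Module K E] [AddCommGroup E'] [Module K E']

theorem divide {d0 : A →ₗ[K] B} {d1 : B →ₗ[K] C} {dD : D →ₗ[K] E} {dE : E →ₗ[K] E'}
    {β : D →ₗ[K] B} {β' : E →ₗ[K] C}
    (hdd : ∀ x, d1 (d0 x) = 0) (hddE : ∀ y, dE (dD y) = 0)
    (hβd : ∀ y, d1 (β y) = β' (dD y))
    (A0 : Submodule K A) (B0 : Submodule K B) (D0 : Submodule K D) (E0 : Submodule K E)
    (FB : ℕ → Submodule K B) (FC : ℕ → Submodule K C) (FD : ℕ → Submodule K D)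
    (FE : ℕ → Submodule K E)
    (hFB0 : FB 0 = ⊥) (hFE0 : FE 0 = ⊥) (μ : ℕ)
    (hA : ∀ x ∈ A0, d0 x ∈ B0) (hD : ∀ y ∈ D0, dD y ∈ E0) (hβ0 : ∀ y ∈ D0, β y ∈ B0)
    (hβF : ∀ n, ∀ y ∈ FD (n + 1), β y ∈ FB (n + μ + 1))
    (hβ'F : ∀ n, ∀ w ∈ FE n, β' w ∈ FC (n + μ))
    {R : Type*} [Finite R] (lev : R → ℕ) (Θ : R → B →ₗ[K] K)
    {T : Type*} (lev' : T → ℕ) (Θ' : T → C →ₗ[K] K)
    {Q : Type*} (levE : Q → ℕ) (ΘE : Q → E →ₗ[K] K)
    (exhaust : ∀ w ∈ B0, ∃ n, w ∈ FB n)
    (t1 : ∀ n, ∀ w ∈ FB (n + 1), w ∈ B0 → ∀ τ, lev' τ = n → Θ' τ (d1 w) = 0)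
    (t2 : ∀ n, ∀ w ∈ FB (n + 1), w ∈ B0 → d1 w ∈ FC n → (∀ r, lev r = n → Θ r w = 0) →
      ∃ x ∈ A0, w - d0 x ∈ FB n)
    (tE : ∀ n, ∀ w ∈ FE (n + 1), w ∈ E0 → dE w = 0 → (∀ q, levE q = n → ΘE q w = 0) →
      ∃ y ∈ D0, y ∈ FD (n + 1) ∧ w - dD y ∈ FE n)
    (hmul : ∀ q, ∃ τ, lev' τ = levE q + μ ∧ ∀ w ∈ E0, w ∈ FE (levE q + 1) →
      Θ' τ (β' w) = ΘE q w)
    (hdiv : ∀ r, ∃ V ∈ D0, β V ∈ FB (lev r + 1) ∧ dD V ∈ FE (lev r - μ) ∧
      Θ r (β V) = 1 ∧ ∀ r', lev r' = lev r → r' ≠ r → Θ r' (β V) = 0) :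
    ∀ z ∈ B0, d1 z = 0 → ∃ x ∈ A0, ∃ y ∈ D0, dD y = 0 ∧ z = d0 x + β y := by
  classical
  have := Fintype.ofFinite R
  have main : ∀ n, ∀ z ∈ FB n, z ∈ B0 → ∀ w ∈ FE (n - μ), w ∈ E0 → dE w = 0 →
      d1 z = - β' w → ∃ x ∈ A0, ∃ y ∈ D0, z = d0 x + β y ∧ w = - dD y := by
    intro n
    induction n with
    | zero =>
      intro z hz _ w hw _ _ _
      rw [Nat.zero_sub, hFE0, Submodule.mem_bot] at hw
      rw [hFB0, Submodule.mem_bot] at hz
      exact ⟨0, A0.zero_mem, 0, D0.zero_mem, by simp [hz], by simp [hw]⟩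
    | succ n ih =>
      intro z hz hzB w hw hwE hdw hzw
      -- first step: the leading part of `w`
      obtain ⟨y1, hy1, hy1F, hw1⟩ : ∃ y ∈ D0, β y ∈ FB (n + 1) ∧ w - dD y ∈ FE (n - μ) := by
        rcases Nat.lt_or_ge n μ with h | h
        · refine ⟨0, D0.zero_mem, by rw [map_zero]; exact Submodule.zero_mem _, ?_⟩
          have h1 : n + 1 - μ = 0 := by omega
          rw [h1, hFE0, Submodule.mem_bot] at hw
          rw [hw, map_zero, sub_zero]
          exact Submodule.zero_mem _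
        · have h1 : n + 1 - μ = (n - μ) + 1 := by omega
          rw [h1] at hw
          obtain ⟨y, hy, hyF, hwy⟩ := tE (n - μ) w hw hwE hdw (fun q hq => by
            obtain ⟨τ, hτ, hτw⟩ := hmul q
            rw [← hτw w hwE (by rw [hq]; exact hw)]
            have h2 := t1 n z hz hzB τ (by omega)
            rw [hzw, map_neg, neg_eq_zero] at h2
            exact h2)
          refine ⟨y, hy, ?_, hwy⟩
          have := hβF (n - μ) y hyF
          rwa [show n - μ + μ + 1 = n + 1 by omega] at this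
      choose V hV0 hVF hVE hV1 hVΘ using hdiv
      set z1 := z + β y1 with hz1
      have hz1F : z1 ∈ FB (n + 1) := Submodule.add_mem _ hz hy1F
      have hz1B : z1 ∈ B0 := Submodule.add_mem _ hzB (hβ0 _ hy1)
      set S : Finset R := Finset.univ.filter fun r => lev r = n with hS
      have hmem : ∀ r, r ∈ S ↔ lev r = n := fun r => by simp [hS]
      set v : D := ∑ r ∈ S, Θ r z1 • V r with hv
      have hvD : v ∈ D0 := Submodule.sum_mem _ fun r _ => Submodule.smul_mem _ _ (hV0 r)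
      have hvF : β v ∈ FB (n + 1) := by
        rw [hv, map_sum]
        refine Submodule.sum_mem _ fun r hr => ?_
        rw [map_smul]
        refine Submodule.smul_mem _ _ ?_
        have := hVF r
        rwa [(hmem r).1 hr] at this
      have hvE : dD v ∈ FE (n - μ) := by
        rw [hv, map_sum]
        refine Submodule.sum_mem _ fun r hr => ?_
        rw [map_smul]
        refine Submodule.smul_mem _ _ ?_
        have := hVE r
        rwa [(hmem r).1 hr] at this
      have hFEC : ∀ w ∈ FE (n - μ), β' w ∈ FC n := by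
        intro w hw
        rcases Nat.lt_or_ge n μ with h | h
        · rw [show n - μ = 0 by omega, hFE0, Submodule.mem_bot] at hw
          rw [hw, map_zero]; exact Submodule.zero_mem _
        · have := hβ'F _ w hw
          rwa [show n - μ + μ = n by omega] at this
      set z2 := z1 - β v with hz2
      set w1 := w - dD y1 with hw1def
      set w2 := w1 + dD v with hw2def
      have hw2F : w2 ∈ FE (n - μ) := Submodule.add_mem _ hw1 hvE
      have hdz2 : d1 z2 = - β' w2 := by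
        rw [hz2, hz1, hw2def, hw1def, map_sub, map_add, hβd, hβd, hzw, map_add, map_sub]
        abel
      obtain ⟨x, hx, hzx⟩ := t2 n z2 (Submodule.sub_mem _ hz1F hvF)
        (Submodule.sub_mem _ hz1B (hβ0 _ hvD))
        (by rw [hdz2]; exact Submodule.neg_mem _ (hFEC _ hw2F))
        (fun r hr => by
          rw [hz2, map_sub, hv, map_sum, map_sum]
          rw [Finset.sum_eq_single r]
          · rw [map_smul, map_smul, smul_eq_mul, hV1 r, mul_one, sub_self]
          · intro r' hr' hne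
            have h1 : lev r' = n := (hmem r').1 hr'
            rw [map_smul, map_smul, smul_eq_mul, hVΘ r' r (by rw [hr, h1]) (Ne.symm hne), mul_zero]
          · intro h
            exact absurd ((hmem r).2 hr) h)
      obtain ⟨x', hx', y', hy', hzz, hww⟩ := ih (z2 - d0 x) hzx
        (Submodule.sub_mem _ (Submodule.sub_mem _ hz1B (hβ0 _ hvD)) (hA _ hx))
        w2 hw2F
        (Submodule.add_mem _ (Submodule.sub_mem _ hwE (hD _ hy1)) (hD _ hvD))
        (by rw [hw2def, hw1def, map_add, map_sub, hddE, hddE, hdw]; simp)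
        (by rw [map_sub, hdd, sub_zero, hdz2])
      refine ⟨x + x', A0.add_mem hx hx', y' + v - y1, D0.sub_mem (D0.add_mem hy' hvD) hy1, ?_, ?_⟩
      · have : z = (z2 - d0 x) + d0 x + β v - β y1 := by rw [hz2, hz1]; abel
        rw [this, hzz]
        simp only [map_add, map_sub]
        abel
      · have : w = w2 - dD v + dD y1 := by rw [hw2def, hw1def]; abel
        rw [this, hww]
        simp only [map_add, map_sub]
        abel
  intro z hz hdz
  obtain ⟨n, hn⟩ := exhaust z hz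
  obtain ⟨x, hx, y, hy, hzz, hww⟩ := main n z hn hz 0 (Submodule.zero_mem _) E0.zero_mem
    (map_zero _) (by rw [map_zero, neg_zero, hdz])
  exact ⟨x, hx, y, hy, by rw [← neg_eq_zero, ← hww], hzz⟩

end Vale.Agent.P257.H941
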